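import Vale.Agent.P215Z.Fm.Mat

/-!
# P215, forms: the transport from a face into a cell
-/

noncomputable section

namespace Vale.Agent.P215Z.Fm

open MvPolynomial

variable {O O' : Type} [CommRing O] [CommRing O']

/-- matrices with coefficients in a nilpotent ideal -/
def Nl (A : Mt O) : Prop := ∃ a : Ideal O, IsNilpotent a ∧ A ∈ MC a

theorem Nl.of {a : Ideal O} (ha : IsNilpotent a) {A : Mt O} (h : A ∈ MC a) : Nl A := ⟨a, ha, h⟩

theorem isNilpotent_sup {a b : Ideal O} (ha : IsNilpotent a) (hb : IsNilpotent b) :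
    IsNilpotent (a ⊔ b) := (Commute.all a b).isNilpotent_add ha hb

theorem isNilpotent_map (χ : O →+* O') {a : Ideal O} (ha : IsNilpotent a) :
    IsNilpotent (a.map χ) := by
  obtain ⟨n, hn⟩ := ha
  exact ⟨n, by rw [← Ideal.map_pow, hn, Ideal.zero_eq_bot, Ideal.map_bot, Ideal.zero_eq_bot]⟩

theorem Nl.zero : Nl (0 : Mt O) := ⟨⊥, ⟨1, pow_one _⟩, zero_mem _⟩

theorem Nl.add {A B : Mt O} (h : Nl A) (h' : Nl B) : Nl (A + B) := by
  obtain ⟨a, ha, h1⟩ := h
  obtain ⟨b, hb, h2⟩ := h'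
  exact ⟨a ⊔ b, isNilpotent_sup ha hb, add_mem (MC_mono le_sup_left h1) (MC_mono le_sup_right h2)⟩

theorem Nl.neg {A : Mt O} (h : Nl A) : Nl (-A) := by
  obtain ⟨a, ha, h1⟩ := h
  exact ⟨a, ha, neg_mem h1⟩

theorem Nl.sub {A B : Mt O} (h : Nl A) (h' : Nl B) : Nl (A - B) := by
  rw [sub_eq_add_neg]; exact h.add h'.neg

theorem Nl.mul_left {A : Mt O} (h : Nl A) (x : Mt O) : Nl (x * A) := by
  obtain ⟨a, ha, h1⟩ := h
  exact ⟨a, ha, MI_mul_left x h1⟩

theorem Nl.mul_right {A : Mt O} (h : Nl A) (x : Mt O) : Nl (A * x) := by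
  obtain ⟨a, ha, h1⟩ := h
  exact ⟨a, ha, MI_mul_right h1 x⟩

theorem Nl.dM {A : Mt O} (h : Nl A) (k : Fin 4) : Nl (dM k A) := by
  obtain ⟨a, ha, h1⟩ := h
  exact ⟨a, ha, MC_dM k h1⟩

theorem Nl.evM {A : Mt O} (h : Nl A) (k : Fin 4) (ε : Bool) : Nl (evM k ε A) := by
  obtain ⟨a, ha, h1⟩ := h
  exact ⟨a, ha, MC_evM k ε h1⟩

theorem Nl.rnM {A : Mt O} (h : Nl A) (σ : Equiv.Perm (Fin 4)) : Nl (rnM σ A) := by
  obtain ⟨a, ha, h1⟩ := h
  exact ⟨a, ha, MC_rnM σ h1⟩

theorem Nl.mapM {A : Mt O} (h : Nl A) (χ : O →+* O') : Nl (mapM χ A) := by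
  obtain ⟨a, ha, h1⟩ := h
  exact ⟨a.map χ, isNilpotent_map χ ha, MC_mapM χ h1⟩

theorem Nl.isNilpotent {A : Mt O} (h : Nl A) : IsNilpotent A := by
  obtain ⟨a, ⟨n, hn⟩, h1⟩ := h
  refine ⟨n, ?_⟩
  have h2 := MI_pow h1 n
  rwa [← Ideal.map_pow, hn, Ideal.zero_eq_bot, Ideal.map_bot, MI_bot] at h2

theorem dM_inv (k : Fin 4) (T : (Mt O)ˣ) : dM k (T⁻¹).1 = -((T⁻¹).1 * dM k T.1 * (T⁻¹).1) := by
  have h := dM_mul k (T⁻¹).1 T.1
  rw [Units.inv_mul, dM_one] at h
  have h2 := congrArg (· * (T⁻¹).1) h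
  simp only [zero_mul, add_mul, mul_assoc, Units.mul_inv, mul_one] at h2
  rw [mul_assoc]
  exact eq_neg_of_add_eq_zero_left h2.symm

theorem dM_inv_of {k : Fin 4} {T : (Mt O)ˣ} {A : Mt O} (h : dM k T.1 = T.1 * A) :
    dM k (T⁻¹).1 = -(A * (T⁻¹).1) := by
  rw [dM_inv, h, ← mul_assoc, Units.inv_mul, one_mul]

theorem map_inv_unit {R R' : Type} [Ring R] [Ring R'] (f : R →+* R') {T : Rˣ} {S : R'ˣ}
    (h : f T.1 = S.1) : f (T⁻¹).1 = (S⁻¹).1 := by
  have h1 : Units.map f.toMonoidHom T = S := Units.ext h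
  rw [← h1]
  rfl

variable [Algebra ℚ O] [Algebra ℚ O']

/-- uniqueness for the linear equation -/
theorem ode_unique {k : Fin 4} {ε : Bool} {A B U : Mt O} (hA : Nl A) (hB : Nl B)
    (h : dM k U = U * A + B * U) (h0 : evM k ε U = 0) : U = 0 := by
  obtain ⟨a, ha, h1⟩ := hA
  obtain ⟨b, hb, h2⟩ := hB
  obtain ⟨n, hn⟩ := isNilpotent_sup ha hb
  have h3 : ∀ m : ℕ, U ∈ MC ((a ⊔ b) ^ m) := by
    intro m
    induction m with
    | zero =>
      rw [pow_zero, Ideal.one_eq_top, MC, Cf, Ideal.map_top]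
      exact MI_top _
    | succ m ih =>
      rw [eq_InM h h0, pow_succ]
      exact MC_InM k ε (add_mem (MC_mul ih (MC_mono le_sup_left h1))
        (MC_mul' (MC_mono le_sup_right h2) ih))
  have h4 := h3 n
  rwa [hn, Ideal.zero_eq_bot, MC_bot] at h4

theorem ode_exists (k : Fin 4) (ε : Bool) {A : Mt O} (hA : Nl A) :
    ∃ T : (Mt O)ˣ, dM k T.1 = T.1 * A ∧ evM k ε T.1 = 1 := by
  obtain ⟨a, ⟨n, hn⟩, h1⟩ := hA
  let P : ℕ → Mt O := fun m => Nat.rec 1 (fun _ T => 1 + InM k ε (T * A)) m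
  have hP : ∀ m, P (m + 1) = 1 + InM k ε (P m * A) := fun m => rfl
  have h2 : ∀ m, P (m + 1) - P m ∈ MC (a ^ m) := by
    intro m
    induction m with
    | zero =>
      rw [pow_zero, Ideal.one_eq_top, MC, Cf, Ideal.map_top]
      exact MI_top _
    | succ m ih =>
      rw [hP (m + 1)]
      conv => enter [2, 2]; rw [hP m]
      rw [add_sub_add_left_eq_sub, ← map_sub, ← sub_mul, pow_succ]
      exact MC_InM k ε (MC_mul ih h1)
  have h3 : P (n + 1) = P n := by
    have h4 := h2 n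
    rwa [hn, Ideal.zero_eq_bot, MC_bot, sub_eq_zero] at h4
  have h4 : P n = 1 + InM k ε (P n * A) := h3.symm.trans (hP n)
  have h5 : IsUnit (P n) := by
    rw [h4]
    exact (Nl.isNilpotent ⟨a, ⟨n, hn⟩, MC_InM k ε (MI_mul_left _ h1)⟩).isUnit_one_add
  obtain ⟨T, hT⟩ := h5
  refine ⟨T, ?_, ?_⟩
  · rw [hT]
    conv_lhs => rw [h4, map_add, dM_one, zero_add, dM_InM]
  · rw [hT, h4, map_add, map_one, evM_InM, add_zero]

open Classical in
/-- the transport from the face `t k = ε` to the position `t` -/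
def step (k : Fin 4) (ε : Bool) (A : Mt O) : (Mt O)ˣ :=
  if h : ∃ T : (Mt O)ˣ, dM k T.1 = T.1 * A ∧ evM k ε T.1 = 1 then h.choose else 1

variable {k : Fin 4} {ε : Bool} {A : Mt O}

theorem step_spec (h : Nl A) :
    dM k (step k ε A).1 = (step k ε A).1 * A ∧ evM k ε (step k ε A).1 = 1 := by
  have h1 := ode_exists k ε h
  rw [step, dif_pos h1]
  exact h1.choose_spec

theorem dM_step (h : Nl A) : dM k (step k ε A).1 = (step k ε A).1 * A := (step_spec h).1

theorem evM_step (h : Nl A) : evM k ε (step k ε A).1 = 1 := (step_spec h).2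

theorem dM_step_inv (h : Nl A) : dM k ((step k ε A)⁻¹).1 = -(A * ((step k ε A)⁻¹).1) :=
  dM_inv_of (dM_step h)

theorem evM_step_inv (h : Nl A) : evM k ε ((step k ε A)⁻¹).1 = 1 :=
  map_inv_unit (evM k ε) (S := 1) (evM_step h)

/-- the general solution -/
theorem eq_mul_step (h : Nl A) (ε : Bool) {T : Mt O} (hT : dM k T = T * A) :
    T = evM k ε T * (step k ε A).1 := by
  refine sub_eq_zero.1 (ode_unique (k := k) (ε := ε) h Nl.zero ?_ ?_)
  · rw [map_sub, dM_mul, dM_evM_self, zero_mul, zero_add, dM_step h, hT, zero_mul, add_zero,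
      sub_mul, mul_assoc]
  · rw [map_sub, map_mul, evM_evM_self, evM_step h, mul_one, sub_self]

theorem eq_step (h : Nl A) {T : Mt O} (hT : dM k T = T * A) (h0 : evM k ε T = 1) :
    T = (step k ε A).1 := by
  have h1 := eq_mul_step h ε hT
  rwa [h0, one_mul] at h1

theorem step_zero : step k ε (0 : Mt O) = 1 :=
  Units.ext (eq_step Nl.zero (by rw [dM_one, mul_zero]) (map_one _)).symm

theorem mapM_step (h : Nl A) (χ : O →+* O') :
    mapM χ (step k ε A).1 = (step k ε (mapM χ A)).1 :=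
  eq_step (h.mapM χ) (by rw [← mapM_dM, dM_step h, map_mul])
    (by rw [← mapM_evM, evM_step h, map_one])

theorem evM_step_ne (h : Nl A) {j : Fin 4} (hj : j ≠ k) (δ : Bool) :
    evM j δ (step k ε A).1 = (step k ε (evM j δ A)).1 :=
  eq_step (h.evM j δ) (by rw [dM_evM_ne hj.symm, dM_step h, map_mul])
    (by rw [← evM_comm hj, evM_step h, map_one])

theorem rnM_step (h : Nl A) (σ : Equiv.Perm (Fin 4)) :
    rnM σ (step k ε A).1 = (step (σ k) ε (rnM σ A)).1 :=
  eq_step (h.rnM σ) (by rw [← rnM_dM, dM_step h, map_mul])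
    (by rw [← rnM_evM, evM_step h, map_one])

theorem dM_step_ne (h : Nl A) {j : Fin 4} (hj : j ≠ k) (hA : dM j A = 0) :
    dM j (step k ε A).1 = 0 :=
  ode_unique (k := k) (ε := ε) h Nl.zero
    (by rw [dM_comm, dM_step h, dM_mul, hA, mul_zero, add_zero, zero_mul, add_zero])
    (by rw [← dM_evM_ne hj, evM_step h, dM_one])

/-- the exact variation of a step -/
theorem step_mul_inv {A' : Mt O} (h : Nl A) (h' : Nl A') :
    (step k ε A').1 * ((step k ε A)⁻¹).1 =
      1 + InM k ε ((step k ε A').1 * (A' - A) * ((step k ε A)⁻¹).1) := by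
  refine eq_add_of_sub_eq' (eq_InM ?_ ?_)
  · rw [map_sub, dM_one, sub_zero, dM_mul, dM_step h', dM_step_inv h]
    noncomm_ring
  · rw [map_sub, map_mul, evM_step h', evM_step_inv h, map_one, mul_one, sub_self]

theorem step_congr {A' : Mt O} (h : Nl A) (h' : Nl A') {b : Ideal O} (hb : A' - A ∈ MC b) :
    (step k ε A').1 - (step k ε A).1 ∈ MC b := by
  rw [MC_sub_iff] at hb ⊢
  rw [mapM_step h, mapM_step h', hb]

theorem step_sub_one (h : Nl A) {b : Ideal O} (hb : A ∈ MC b) : (step k ε A).1 - 1 ∈ MC b := by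
  have h1 := step_congr (k := k) (ε := ε) Nl.zero h (b := b) (by rwa [sub_zero])
  rwa [step_zero] at h1

/-- the variation of a step along a derivation of the coefficients -/
theorem cmM_step (h : Nl A) {D : O →+ O} (hD : ∀ a b, D (a * b) = D a * b + a * D b) :
    cmM D (step k ε A).1 * ((step k ε A)⁻¹).1 =
      InM k ε ((step k ε A).1 * cmM D A * ((step k ε A)⁻¹).1) := by
  refine eq_InM ?_ ?_
  · rw [dM_mul, ← cmM_dM, dM_step h, dM_step_inv h, cmM_mul_of_leibniz hD]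
    noncomm_ring
  · rw [map_mul, ← cmM_evM, evM_step h, cmM_one_of_leibniz hD, zero_mul]

/-- the gauge transform of one component -/
def gau (k : Fin 4) (g : (Mt O)ˣ) (A : Mt O) : Mt O :=
  (g⁻¹).1 * A * g.1 + (g⁻¹).1 * dM k g.1

omit [Algebra ℚ O] in
theorem Nl.gau (h : Nl A) {g : (Mt O)ˣ} (hg : Nl (g.1 - 1)) : Nl (gau k g A) := by
  have h1 := hg.dM k
  rw [map_sub, dM_one, sub_zero] at h1
  exact ((h.mul_left _).mul_right _).add (h1.mul_left _)

theorem step_gau (h : Nl A) {g : (Mt O)ˣ} (hg : Nl (g.1 - 1)) :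
    evM k ε g.1 * (step k ε (gau k g A)).1 = (step k ε A).1 * g.1 := by
  have h1 : dM k ((step k ε A).1 * g.1) = (step k ε A).1 * g.1 * gau k g A := by
    rw [dM_mul, dM_step h, gau]
    simp only [mul_add, mul_assoc, Units.mul_inv_cancel_left]
  have h2 := eq_mul_step (h.gau hg) ε h1
  rw [map_mul, evM_step h, one_mul] at h2
  exact h2.symm

/-! ### curvature and plaquettes -/

/-- the curvature component -/
def cv (k l : Fin 4) (A B : Mt O) : Mt O := dM k B - dM l A + (A * B - B * A)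

omit [Algebra ℚ O] in
theorem cv_symm (k l : Fin 4) (A B : Mt O) : cv l k B A = -cv k l A B := by
  unfold cv
  abel

omit [Algebra ℚ O] [Algebra ℚ O'] in
theorem mapM_cv (χ : O →+* O') (k l : Fin 4) (A B : Mt O) :
    mapM χ (cv k l A B) = cv k l (mapM χ A) (mapM χ B) := by
  simp only [cv, map_add, map_sub, map_mul, mapM_dM]

/-- two steps into a cell: first along `k` in the face `t l = δ`, then along `l` -/
def two (k l : Fin 4) (ε δ : Bool) (A B : Mt O) : (Mt O)ˣ :=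
  step k ε (evM l δ A) * step l δ B

/-- the plaquette -/
def plaq (k l : Fin 4) (ε δ : Bool) (A B : Mt O) : (Mt O)ˣ :=
  two k l ε δ A B * (two l k δ ε B A)⁻¹

section Plaq

variable {l : Fin 4} {δ : Bool} {B : Mt O}

theorem dM_two (hkl : k ≠ l) (hA : Nl A) (hB : Nl B) :
    dM l (two k l ε δ A B).1 = (two k l ε δ A B).1 * B := by
  rw [two, Units.val_mul, dM_mul, dM_step_ne (hA.evM l δ) hkl.symm (dM_evM_self _ _ _), zero_mul,
    zero_add, dM_step hB, mul_assoc]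

theorem evM_two (hA : Nl A) (hB : Nl B) (hkl : k ≠ l) :
    evM l δ (two k l ε δ A B).1 = (step k ε (evM l δ A)).1 := by
  rw [two, Units.val_mul, map_mul, evM_step hB, mul_one, evM_step_ne (hA.evM l δ) hkl.symm,
    evM_evM_self]

theorem evM_two' (hA : Nl A) (hB : Nl B) (hkl : k ≠ l) :
    evM k ε (two k l ε δ A B).1 = (step l δ (evM k ε B)).1 := by
  rw [two, Units.val_mul, map_mul, evM_step (hA.evM l δ), one_mul, evM_step_ne hB hkl]

theorem dM_two' (hkl : k ≠ l) (hA : Nl A) (hB : Nl B) :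
    dM k (two k l ε δ A B).1 = (two k l ε δ A B).1 * A +
      InM l δ ((two k l ε δ A B).1 * cv k l A B * ((two k l ε δ A B)⁻¹).1) *
        (two k l ε δ A B).1 := by
  set G := two k l ε δ A B with hG
  have h1 : dM l G.1 = G.1 * B := dM_two hkl hA hB
  have h2 : (dM k G.1 - G.1 * A) * (G⁻¹).1 = InM l δ (G.1 * cv k l A B * (G⁻¹).1) := by
    refine eq_InM ?_ ?_
    · rw [dM_mul, map_sub, dM_comm, h1, dM_mul, dM_mul, h1, dM_inv_of h1, cv]
      noncomm_ring
    · rw [map_mul, map_sub, map_mul, ← dM_evM_ne hkl, evM_two hA hB hkl, dM_step (hA.evM l δ),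
        sub_self, zero_mul]
  rw [← h2, mul_assoc, Units.inv_mul, mul_one, add_sub_cancel]

/-- the exact formula for the plaquette -/
theorem plaq_eq (hkl : k ≠ l) (hA : Nl A) (hB : Nl B) :
    (plaq k l ε δ A B).1 = 1 + InM k ε
      (InM l δ ((two k l ε δ A B).1 * cv k l A B * ((two k l ε δ A B)⁻¹).1) *
        (plaq k l ε δ A B).1) := by
  refine eq_add_of_sub_eq' (eq_InM ?_ ?_)
  · rw [map_sub, dM_one, sub_zero, plaq, Units.val_mul, dM_mul, dM_two' hkl hA hB,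
      dM_inv_of (dM_two hkl.symm hB hA)]
    noncomm_ring
  · rw [map_sub, plaq, Units.val_mul, map_mul, evM_two' hA hB hkl,
      map_inv_unit (evM k ε) (evM_two hB hA hkl.symm), Units.mul_inv, map_one, sub_self]

theorem plaq_sub_one (hkl : k ≠ l) (hA : Nl A) (hB : Nl B) {b : Ideal O}
    (hb : cv k l A B ∈ MC b) : (plaq k l ε δ A B).1 - 1 ∈ MC b := by
  rw [plaq_eq hkl hA hB, add_sub_cancel_left]
  exact MC_InM _ _ (MI_mul_right (MC_InM _ _ (MI_conj hb _ _)) _)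

/-- the plaquette to first order -/
theorem plaq_first (hkl : k ≠ l) (hA : Nl A) (hB : Nl B) {b : Ideal O}
    (hb : cv k l A B ∈ MC b) : (plaq k l ε δ A B).1 - 1 - InM k ε
      (InM l δ ((two k l ε δ A B).1 * cv k l A B * ((two k l ε δ A B)⁻¹).1)) ∈ MC (b * b) := by
  have h1 := plaq_sub_one (ε := ε) (δ := δ) hkl hA hB hb
  conv => enter [2, 1, 1]; rw [plaq_eq hkl hA hB]
  rw [add_sub_cancel_left, ← map_sub, ← mul_sub_one]
  exact MC_InM _ _ (MC_mul (MC_InM _ _ (MI_conj hb _ _)) h1)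

/-- for a flat pair the two orders agree -/
theorem two_comm (hkl : k ≠ l) (hA : Nl A) (hB : Nl B) (h : cv k l A B = 0) :
    two k l ε δ A B = two l k δ ε B A := by
  have h1 := plaq_sub_one (ε := ε) (δ := δ) hkl hA hB (b := ⊥) (MC_bot.2 h)
  rw [MC_bot, sub_eq_zero] at h1
  exact mul_inv_eq_one.1 (Units.ext h1)

end Plaq

end Vale.Agent.P215Z.Fm
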