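import Vale.Agent.P215Z.Fm.Poly
import Vale.Agent.P215Z.Core.Defs

/-!
# P215, forms: matrices of polynomials
-/

noncomputable section

namespace Vale.Agent.P215Z.Fm

open MvPolynomial

/-! ### matrices with entries in an ideal -/

section MI

variable {R R' : Type} [CommRing R] [CommRing R']

/-- matrices with entries in `J` -/
def MI (J : Ideal R) : Submodule R (M2 R) where
  carrier := {x | ∀ i j, x i j ∈ J}
  add_mem' := fun ha hb i j => J.add_mem (ha i j) (hb i j)
  zero_mem' := fun _ _ => J.zero_mem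
  smul_mem' := fun c _ ha i j => J.mul_mem_left c (ha i j)

theorem mem_MI {J : Ideal R} {x : M2 R} : x ∈ MI J ↔ ∀ i j, x i j ∈ J := Iff.rfl

theorem MI_mono {J J' : Ideal R} (h : J ≤ J') {x : M2 R} (hx : x ∈ MI J) : x ∈ MI J' :=
  fun i j => h (hx i j)

theorem MI_top (x : M2 R) : x ∈ MI (⊤ : Ideal R) := fun _ _ => trivial

theorem MI_bot {x : M2 R} : x ∈ MI (⊥ : Ideal R) ↔ x = 0 :=
  ⟨fun h => Matrix.ext fun i j => h i j, fun h i j => by rw [h]; exact Ideal.zero_mem _⟩

theorem MI_mul {J J' : Ideal R} {x y : M2 R} (hx : x ∈ MI J) (hy : y ∈ MI J') :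
    x * y ∈ MI (J * J') := fun i j => by
  rw [Matrix.mul_apply]
  exact Ideal.sum_mem _ fun k _ => Ideal.mul_mem_mul (hx i k) (hy k j)

theorem MI_mul' {J J' : Ideal R} {x y : M2 R} (hx : x ∈ MI J) (hy : y ∈ MI J') :
    x * y ∈ MI (J' * J) := by
  rw [mul_comm J' J]; exact MI_mul hx hy

theorem MI_mul_left {J : Ideal R} (x : M2 R) {y : M2 R} (hy : y ∈ MI J) : x * y ∈ MI J :=
  MI_mono Ideal.mul_le_right (MI_mul (MI_top x) hy)

theorem MI_mul_right {J : Ideal R} {x : M2 R} (hx : x ∈ MI J) (y : M2 R) : x * y ∈ MI J :=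
  MI_mono Ideal.mul_le_left (MI_mul hx (MI_top y))

theorem MI_conj {J : Ideal R} {y : M2 R} (hy : y ∈ MI J) (x z : M2 R) : x * y * z ∈ MI J :=
  MI_mul_right (MI_mul_left x hy) z

theorem MI_smul {J J' : Ideal R} {c : R} {y : M2 R} (hc : c ∈ J) (hy : y ∈ MI J') :
    c • y ∈ MI (J * J') := fun i j => Ideal.mul_mem_mul hc (hy i j)

theorem MI_trace {J : Ideal R} {x : M2 R} (hx : x ∈ MI J) : x.trace ∈ J :=
  Ideal.sum_mem _ fun i _ => hx i i

theorem MI_sup {J J' : Ideal R} {x : M2 R} (hx : x ∈ MI (J ⊔ J')) :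
    ∃ y ∈ MI J, ∃ z ∈ MI J', x = y + z := by
  choose y hy z hz h using fun i j => Submodule.mem_sup.1 (hx i j)
  exact ⟨Matrix.of y, hy, Matrix.of z, hz, Matrix.ext fun i j => (h i j).symm⟩

theorem MI_pow {J : Ideal R} {x : M2 R} (hx : x ∈ MI J) (n : ℕ) : x ^ n ∈ MI (J ^ n) := by
  induction n with
  | zero => rw [pow_zero J, Ideal.one_eq_top]; exact MI_top _
  | succ n ih => rw [pow_succ, pow_succ]; exact MI_mul ih hx

theorem MI_map (f : R →+* R') {J : Ideal R} {x : M2 R} (hx : x ∈ MI J) :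
    f.mapMatrix x ∈ MI (J.map f) := fun i j => Ideal.mem_map_of_mem f (hx i j)

theorem MI_iff_map {J : Ideal R} {x : M2 R} :
    x ∈ MI J ↔ (Ideal.Quotient.mk J).mapMatrix x = 0 :=
  ⟨fun h => Matrix.ext fun i j => Ideal.Quotient.eq_zero_iff_mem.2 (h i j),
    fun h i j => Ideal.Quotient.eq_zero_iff_mem.1 (congrFun (congrFun h i) j)⟩

/-- congruence of products -/
theorem MI_mul_sub {J : Ideal R} {x x' y y' : M2 R} (hx : x - x' ∈ MI J) (hy : y - y' ∈ MI J) :
    x * y - x' * y' ∈ MI J := by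
  have h : x * y - x' * y' = (x - x') * y + x' * (y - y') := by noncomm_ring
  rw [h]
  exact add_mem (MI_mul_right hx y) (MI_mul_left x' hy)

/-- congruence of inverses -/
theorem MI_inv_sub {J : Ideal R} {x y : (M2 R)ˣ} (h : x.1 - y.1 ∈ MI J) :
    (x⁻¹).1 - (y⁻¹).1 ∈ MI J := by
  have h1 : (x⁻¹).1 - (y⁻¹).1 = -((x⁻¹).1 * (x.1 - y.1) * (y⁻¹).1) := by
    rw [mul_sub, sub_mul, Units.inv_mul, one_mul, mul_assoc, Units.mul_inv, mul_one, neg_sub]
  rw [h1]
  exact neg_mem (MI_conj h _ _)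

/-- the ideal spanned by the entries of a matrix -/
def ent (x : M2 R) : Ideal R := Ideal.span {f | ∃ i j, f = x i j}

theorem mem_ent (x : M2 R) : x ∈ MI (ent x) := fun i j => Ideal.subset_span ⟨i, j, rfl⟩

theorem ent_le {J : Ideal R} {x : M2 R} : ent x ≤ J ↔ x ∈ MI J :=
  ⟨fun h => MI_mono h (mem_ent x), fun h => Ideal.span_le.2 (by
    rintro _ ⟨i, j, rfl⟩
    exact h i j)⟩

/-- Nakayama's lemma for a nilpotent ideal -/
theorem le_of_le_sup_mul {a c b : Ideal R} (ha : IsNilpotent a) (h : c ≤ b ⊔ a * c) : c ≤ b := by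
  obtain ⟨n, hn⟩ := ha
  have h1 : ∀ m : ℕ, c ≤ b ⊔ a ^ m * c := by
    intro m
    induction m with
    | zero => rw [pow_zero, one_mul]; exact le_sup_right
    | succ m ih =>
      refine ih.trans (sup_le le_sup_left ?_)
      refine (Ideal.mul_mono_right h).trans ?_
      rw [Ideal.mul_sup, pow_succ, mul_assoc]
      exact sup_le_sup_right Ideal.mul_le_right _
  have h2 := h1 n
  rwa [hn, zero_mul, Ideal.zero_eq_bot, sup_bot_eq] at h2

end MI

/-! ### operators on matrices of polynomials -/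

/-- matrices of polynomials -/
abbrev Mt (O : Type) [CommRing O] : Type := M2 (Py O)

variable {O O' : Type} [CommRing O] [CommRing O']

/-- the derivative -/
def dM (k : Fin 4) : Mt O →+ Mt O := (pderiv k).toLinearMap.toAddMonoidHom.mapMatrix

/-- the restriction to a face -/
def evM (k : Fin 4) (ε : Bool) : Mt O →+* Mt O := (ev (O := O) k ε).toRingHom.mapMatrix

/-- change of coefficients -/
def mapM (χ : O →+* O') : Mt O →+* Mt O' := (map χ : Py O →+* Py O').mapMatrix

/-- additive maps of the coefficients -/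
def cmM (f : O →+ O') : Mt O →+ Mt O' := (cm f).mapMatrix

/-- constant matrices -/
def CM : M2 O →+* Mt O := (C : O →+* Py O).mapMatrix

/-- permutation of the coordinates -/
def rnM (σ : Equiv.Perm (Fin 4)) : Mt O →+* Mt O := (rename (R := O) σ).toRingHom.mapMatrix

/-- the value at `t = 0` -/
def at0 : Mt O →+* M2 O := (constantCoeff : Py O →+* O).mapMatrix

@[simp] theorem dM_apply (k : Fin 4) (x : Mt O) (i j : Fin 2) : dM k x i j = pderiv k (x i j) := rfl
@[simp] theorem evM_apply (k : Fin 4) (ε : Bool) (x : Mt O) (i j : Fin 2) :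
    evM k ε x i j = ev k ε (x i j) := rfl
@[simp] theorem mapM_apply (χ : O →+* O') (x : Mt O) (i j : Fin 2) :
    mapM χ x i j = map χ (x i j) := rfl
@[simp] theorem cmM_apply (f : O →+ O') (x : Mt O) (i j : Fin 2) : cmM f x i j = cm f (x i j) := rfl
@[simp] theorem CM_apply (x : M2 O) (i j : Fin 2) : CM x i j = C (x i j) := rfl
@[simp] theorem rnM_apply (σ : Equiv.Perm (Fin 4)) (x : Mt O) (i j : Fin 2) :
    rnM σ x i j = rename σ (x i j) := rfl
@[simp] theorem at0_apply (x : Mt O) (i j : Fin 2) : at0 x i j = constantCoeff (x i j) := rfl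

theorem dM_mul (k : Fin 4) (x y : Mt O) : dM k (x * y) = dM k x * y + x * dM k y := by
  refine Matrix.ext fun i j => ?_
  simp only [dM_apply, Matrix.mul_apply, Matrix.add_apply, map_sum, pderiv_mul,
    Finset.sum_add_distrib]

theorem dM_CM (k : Fin 4) (x : M2 O) : dM k (CM x) = 0 := by
  refine Matrix.ext fun i j => ?_
  exact pderiv_C

theorem dM_one (k : Fin 4) : dM k (1 : Mt O) = 0 := by
  rw [← map_one (CM (O := O)), dM_CM]

theorem dM_smul (k : Fin 4) (f : Py O) (x : Mt O) :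
    dM k (f • x) = pderiv k f • x + f • dM k x := by
  refine Matrix.ext fun i j => ?_
  simp only [dM_apply, Matrix.smul_apply, Matrix.add_apply, smul_eq_mul, pderiv_mul]

theorem evM_smul (k : Fin 4) (ε : Bool) (f : Py O) (x : Mt O) :
    evM k ε (f • x) = ev k ε f • evM k ε x := by
  refine Matrix.ext fun i j => ?_
  simp only [evM_apply, Matrix.smul_apply, smul_eq_mul, map_mul]

theorem mapM_smul (χ : O →+* O') (f : Py O) (x : Mt O) :
    mapM χ (f • x) = map χ f • mapM χ x := by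
  refine Matrix.ext fun i j => ?_
  simp only [mapM_apply, Matrix.smul_apply, smul_eq_mul, map_mul]

theorem rnM_smul (σ : Equiv.Perm (Fin 4)) (f : Py O) (x : Mt O) :
    rnM σ (f • x) = rename σ f • rnM σ x := by
  refine Matrix.ext fun i j => ?_
  simp only [rnM_apply, Matrix.smul_apply, smul_eq_mul, map_mul]

theorem dM_comm (j k : Fin 4) (x : Mt O) : dM j (dM k x) = dM k (dM j x) := by
  refine Matrix.ext fun a b => ?_
  exact pderiv_comm j k _

theorem evM_CM (k : Fin 4) (ε : Bool) (x : M2 O) : evM k ε (CM x) = CM x := by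
  refine Matrix.ext fun a b => ?_
  exact ev_C k ε _

theorem evM_evM_self (k : Fin 4) (ε δ : Bool) (x : Mt O) : evM k ε (evM k δ x) = evM k δ x := by
  refine Matrix.ext fun a b => ?_
  exact ev_ev_self k ε δ _

theorem evM_comm {j k : Fin 4} (h : j ≠ k) (ε δ : Bool) (x : Mt O) :
    evM j ε (evM k δ x) = evM k δ (evM j ε x) := by
  refine Matrix.ext fun a b => ?_
  exact ev_comm h ε δ _

theorem dM_evM_self (k : Fin 4) (ε : Bool) (x : Mt O) : dM k (evM k ε x) = 0 := by
  refine Matrix.ext fun a b => ?_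
  exact pderiv_ev_self k ε _

theorem dM_evM_ne {j k : Fin 4} (h : j ≠ k) (ε : Bool) (x : Mt O) :
    dM j (evM k ε x) = evM k ε (dM j x) := by
  refine Matrix.ext fun a b => ?_
  exact pderiv_ev_ne h ε _

theorem mapM_eq_cmM (χ : O →+* O') (x : Mt O) : mapM χ x = cmM χ.toAddMonoidHom x := by
  refine Matrix.ext fun a b => ?_
  exact map_eq_cm χ _

theorem cmM_dM (f : O →+ O') (k : Fin 4) (x : Mt O) : cmM f (dM k x) = dM k (cmM f x) := by
  refine Matrix.ext fun a b => ?_
  exact cm_pderiv f k _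

theorem cmM_evM (f : O →+ O') (k : Fin 4) (ε : Bool) (x : Mt O) :
    cmM f (evM k ε x) = evM k ε (cmM f x) := by
  refine Matrix.ext fun a b => ?_
  exact cm_ev f k ε _

theorem mapM_dM (χ : O →+* O') (k : Fin 4) (x : Mt O) : mapM χ (dM k x) = dM k (mapM χ x) := by
  rw [mapM_eq_cmM, mapM_eq_cmM, cmM_dM]

theorem mapM_evM (χ : O →+* O') (k : Fin 4) (ε : Bool) (x : Mt O) :
    mapM χ (evM k ε x) = evM k ε (mapM χ x) := by
  rw [mapM_eq_cmM, mapM_eq_cmM, cmM_evM]

theorem mapM_CM (χ : O →+* O') (x : M2 O) : mapM χ (CM x) = CM (χ.mapMatrix x) := by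
  refine Matrix.ext fun a b => ?_
  exact map_C χ _

theorem mapM_rnM (χ : O →+* O') (σ : Equiv.Perm (Fin 4)) (x : Mt O) :
    mapM χ (rnM σ x) = rnM σ (mapM χ x) := by
  refine Matrix.ext fun a b => ?_
  exact map_rename χ σ _

theorem mapM_mapM {O'' : Type} [CommRing O''] (χ : O →+* O') (χ' : O' →+* O'') (x : Mt O) :
    mapM χ' (mapM χ x) = mapM (χ'.comp χ) x := by
  refine Matrix.ext fun a b => ?_
  exact map_map χ χ' _

theorem rnM_dM (σ : Equiv.Perm (Fin 4)) (k : Fin 4) (x : Mt O) :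
    rnM σ (dM k x) = dM (σ k) (rnM σ x) := by
  refine Matrix.ext fun a b => ?_
  exact (pderiv_rename σ.injective k _).symm

theorem rnM_evM (σ : Equiv.Perm (Fin 4)) (k : Fin 4) (ε : Bool) (x : Mt O) :
    rnM σ (evM k ε x) = evM (σ k) ε (rnM σ x) := by
  refine Matrix.ext fun a b => ?_
  exact (ev_rename σ k ε _).symm

theorem rnM_CM (σ : Equiv.Perm (Fin 4)) (x : M2 O) : rnM σ (CM x) = CM x := by
  refine Matrix.ext fun a b => ?_
  exact rename_C σ _

theorem at0_CM (x : M2 O) : at0 (CM x) = x := by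
  refine Matrix.ext fun a b => ?_
  exact constantCoeff_C _ _

theorem at0_mapM (χ : O →+* O') (x : Mt O) : at0 (mapM χ x) = χ.mapMatrix (at0 x) := by
  refine Matrix.ext fun a b => ?_
  exact constantCoeff_map χ _

theorem cc_ev (k : Fin 4) (f : Py O) : constantCoeff (ev k false f) = constantCoeff f := by
  induction f using MvPolynomial.induction_on with
  | C a => simp
  | add p q hp hq => simp [hp, hq]
  | mul_X p j hp =>
    by_cases h : j = k
    · subst h; simp
    · simp [ev_X_ne h]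

theorem at0_evM (k : Fin 4) (x : Mt O) : at0 (evM k false x) = at0 x := by
  refine Matrix.ext fun a b => ?_
  exact cc_ev k _

theorem cmM_mul_of_leibniz {D : O →+ O} (hD : ∀ a b, D (a * b) = D a * b + a * D b)
    (x y : Mt O) : cmM D (x * y) = cmM D x * y + x * cmM D y := by
  refine Matrix.ext fun i j => ?_
  simp only [cmM_apply, Matrix.mul_apply, Matrix.add_apply, map_sum, cm_mul_of_leibniz hD,
    Finset.sum_add_distrib]

theorem cmM_one_of_leibniz {D : O →+ O} (hD : ∀ a b, D (a * b) = D a * b + a * D b) :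
    cmM D (1 : Mt O) = 0 := by
  have h := cmM_mul_of_leibniz hD 1 1
  rw [one_mul, one_mul, mul_one] at h
  exact left_eq_add.1 h

theorem trace_dM (k : Fin 4) (x : Mt O) : (dM k x).trace = pderiv k x.trace := by
  simp only [Matrix.trace, Matrix.diag, map_sum, dM_apply]

theorem trace_evM (k : Fin 4) (ε : Bool) (x : Mt O) : (evM k ε x).trace = ev k ε x.trace := by
  simp only [Matrix.trace, Matrix.diag, map_sum, evM_apply]

theorem trace_mapM (χ : O →+* O') (x : Mt O) : (mapM χ x).trace = map χ x.trace := by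
  simp only [Matrix.trace, Matrix.diag, map_sum, mapM_apply]

theorem trace_cmM (f : O →+ O') (x : Mt O) : (cmM f x).trace = cm f x.trace := by
  simp only [Matrix.trace, Matrix.diag, map_sum, cmM_apply]

theorem trace_rnM (σ : Equiv.Perm (Fin 4)) (x : Mt O) : (rnM σ x).trace = rename σ x.trace := by
  simp only [Matrix.trace, Matrix.diag, map_sum, rnM_apply]

/-- matrices of polynomials with coefficients in `b` -/
abbrev MC (b : Ideal O) : Submodule (Py O) (Mt O) := MI (Cf b)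

theorem MC_iff_map {b : Ideal O} {x : Mt O} : x ∈ MC b ↔ mapM (Ideal.Quotient.mk b) x = 0 :=
  ⟨fun h => Matrix.ext fun i j => mem_Cf_iff_map.1 (h i j),
    fun h i j => mem_Cf_iff_map.2 (congrFun (congrFun h i) j)⟩

theorem MC_sub_iff {b : Ideal O} {x y : Mt O} :
    x - y ∈ MC b ↔ mapM (Ideal.Quotient.mk b) x = mapM (Ideal.Quotient.mk b) y := by
  rw [MC_iff_map, map_sub, sub_eq_zero]

theorem MC_mono {b b' : Ideal O} (h : b ≤ b') {x : Mt O} (hx : x ∈ MC b) : x ∈ MC b' :=
  MI_mono (Cf_mono h) hx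

theorem MC_mul {b b' : Ideal O} {x y : Mt O} (hx : x ∈ MC b) (hy : y ∈ MC b') :
    x * y ∈ MC (b * b') := by
  rw [MC, Cf_mul]; exact MI_mul hx hy

theorem MC_mul' {b b' : Ideal O} {x y : Mt O} (hx : x ∈ MC b) (hy : y ∈ MC b') :
    x * y ∈ MC (b' * b) := by
  rw [mul_comm b' b]; exact MC_mul hx hy

theorem MC_bot {x : Mt O} : x ∈ MC (⊥ : Ideal O) ↔ x = 0 := by
  rw [MC, Cf_bot, MI_bot]

theorem MC_sup {b b' : Ideal O} {x : Mt O} (hx : x ∈ MC (b ⊔ b')) :
    ∃ y ∈ MC b, ∃ z ∈ MC b', x = y + z := by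
  rw [MC, Cf_sup] at hx
  exact MI_sup hx

theorem MC_dM {b : Ideal O} {x : Mt O} (k : Fin 4) (hx : x ∈ MC b) : dM k x ∈ MC b :=
  fun i j => pderiv_mem k (hx i j)

theorem MC_evM {b : Ideal O} {x : Mt O} (k : Fin 4) (ε : Bool) (hx : x ∈ MC b) :
    evM k ε x ∈ MC b := fun i j => ev_mem k ε (hx i j)

theorem MC_rnM {b : Ideal O} {x : Mt O} (σ : Equiv.Perm (Fin 4)) (hx : x ∈ MC b) :
    rnM σ x ∈ MC b := fun i j => lin_mem (rename σ).toLinearMap (hx i j)

theorem MC_CM {b : Ideal O} {x : M2 O} (hx : x ∈ MI b) : CM x ∈ MC b :=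
  fun i j => Ideal.mem_map_of_mem _ (hx i j)

theorem MC_at0 {b : Ideal O} {x : Mt O} (hx : x ∈ MC b) : at0 x ∈ MI b :=
  fun i j => mem_Cf.1 (hx i j) 0

theorem MC_CM_iff {b : Ideal O} {x : M2 O} : CM x ∈ MC b ↔ x ∈ MI b :=
  ⟨fun h => at0_CM x ▸ MC_at0 h, MC_CM⟩

theorem MC_cmM {f : O →+ O'} {b : Ideal O} {b' : Ideal O'} (h : ∀ a ∈ b, f a ∈ b') {x : Mt O}
    (hx : x ∈ MC b) : cmM f x ∈ MC b' := fun i j => cm_mem h (hx i j)

theorem MC_mapM (χ : O →+* O') {b : Ideal O} {x : Mt O} (hx : x ∈ MC b) :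
    mapM χ x ∈ MC (b.map χ) := by
  rw [mapM_eq_cmM]
  exact MC_cmM (fun a ha => Ideal.mem_map_of_mem χ ha) hx

variable [Algebra ℚ O] [Algebra ℚ O']

/-- the integral from the face `t k = ε` -/
def InM (k : Fin 4) (ε : Bool) : Mt O →+ Mt O := (In k ε).toAddMonoidHom.mapMatrix

@[simp] theorem InM_apply (k : Fin 4) (ε : Bool) (x : Mt O) (i j : Fin 2) :
    InM k ε x i j = In k ε (x i j) := rfl

theorem dM_InM (k : Fin 4) (ε : Bool) (x : Mt O) : dM k (InM k ε x) = x := by
  refine Matrix.ext fun a b => ?_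
  exact pderiv_In k ε _

theorem evM_InM (k : Fin 4) (ε : Bool) (x : Mt O) : evM k ε (InM k ε x) = 0 := by
  refine Matrix.ext fun a b => ?_
  exact ev_In k ε _

theorem InM_dM (k : Fin 4) (ε : Bool) (x : Mt O) : InM k ε (dM k x) = x - evM k ε x := by
  refine Matrix.ext fun a b => ?_
  exact In_pderiv k ε _

theorem dM_InM_ne {j k : Fin 4} (h : j ≠ k) (ε : Bool) (x : Mt O) :
    dM j (InM k ε x) = InM k ε (dM j x) := by
  refine Matrix.ext fun a b => ?_
  exact pderiv_In_ne h ε _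

theorem evM_InM_ne {j k : Fin 4} (h : j ≠ k) (δ ε : Bool) (x : Mt O) :
    evM j δ (InM k ε x) = InM k ε (evM j δ x) := by
  refine Matrix.ext fun a b => ?_
  exact ev_In_ne h δ ε _

theorem evM_of_dM {k : Fin 4} {x : Mt O} (h : dM k x = 0) (ε : Bool) : evM k ε x = x := by
  refine Matrix.ext fun a b => ?_
  exact ev_of_pderiv (congrFun (congrFun h a) b) ε

theorem eq_of_dM {k : Fin 4} {ε : Bool} {x y : Mt O} (h : dM k x = dM k y)
    (h' : evM k ε x = evM k ε y) : x = y := by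
  refine Matrix.ext fun a b => ?_
  exact eq_of_pderiv (congrFun (congrFun h a) b) (congrFun (congrFun h' a) b)

theorem eq_InM {k : Fin 4} {ε : Bool} {x y : Mt O} (h : dM k x = y) (h' : evM k ε x = 0) :
    x = InM k ε y := eq_of_dM (ε := ε) (by rw [dM_InM, h]) (by rw [evM_InM, h'])

theorem InM_mul_left {k : Fin 4} (ε : Bool) {g : Mt O} (hg : dM k g = 0) (x : Mt O) :
    InM k ε (g * x) = g * InM k ε x :=
  (eq_InM (by rw [dM_mul, hg, zero_mul, zero_add, dM_InM])
    (by rw [map_mul, evM_InM, mul_zero])).symm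

theorem InM_mul_right {k : Fin 4} (ε : Bool) {g : Mt O} (hg : dM k g = 0) (x : Mt O) :
    InM k ε (x * g) = InM k ε x * g :=
  (eq_InM (by rw [dM_mul, hg, mul_zero, add_zero, dM_InM])
    (by rw [map_mul, evM_InM, zero_mul])).symm

theorem mapM_InM (χ : O →+* O') (k : Fin 4) (ε : Bool) (x : Mt O) :
    mapM χ (InM k ε x) = InM k ε (mapM χ x) := by
  refine Matrix.ext fun a b => ?_
  exact map_In χ k ε _

theorem trace_InM (k : Fin 4) (ε : Bool) (x : Mt O) : (InM k ε x).trace = In k ε x.trace := by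
  simp only [Matrix.trace, Matrix.diag, map_sum, InM_apply]

theorem MC_InM {b : Ideal O} {x : Mt O} (k : Fin 4) (ε : Bool) (hx : x ∈ MC b) :
    InM k ε x ∈ MC b := fun i j => In_mem k ε (hx i j)

theorem eq_CM_of_dM {x : Mt O} (h : ∀ k, dM k x = 0) : x = CM (at0 x) := by
  refine Matrix.ext fun a b => ?_
  have h1 := eq_C_of_pderiv (f := x a b) fun k => congrFun (congrFun (h k) a) b
  change x a b = C (constantCoeff (x a b))
  rw [h1, constantCoeff_C]

end Vale.Agent.P215Z.Fm
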