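import Vale.Agent.P215Z.Fm.CS
import Vale.Agent.P215Z.Frm.Defs

/-!
# P215, forms: dictionary between the two sets of definitions
-/

noncomputable section

namespace Vale.Agent.P215Z.Fm.Br

open MvPolynomial

variable {O O' : Type} [CommRing O] [CommRing O']

theorem ev_eq (k : Fin 4) (c : Bool) : P215Z.ev (O := O) k c = Fm.ev k c := rfl
theorem pd_eq (k : Fin 4) (x : MM O) : pd k x = dM k x := rfl
theorem evM_eq (k : Fin 4) (c : Bool) (x : MM O) : P215Z.evM k c x = Fm.evM k c x := rfl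
theorem at0_eq (x : MM O) : P215Z.at0 x = Fm.at0 x := rfl
theorem cst_eq (y : M2 O) : cst y = CM y := rfl
theorem mapM_eq (χ : O →+* O') (x : MM O) : P215Z.mapM χ x = Fm.mapM χ x := rfl
theorem renM_eq (π : Equiv.Perm (Fin 4)) (x : MM O) : renM π x = rnM π x := rfl
theorem inC_iff {b : Ideal O} {y : M2 O} : InC b y ↔ y ∈ MI b := Iff.rfl
theorem inI_iff {b : Ideal O} {x : MM O} : InI b x ↔ x ∈ MC b := Iff.rfl
theorem map1_eq (χ : O →+* O') (A : F1 O) : map1 χ A = mapC χ A := rfl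
theorem dd1_eq (A : F1 O) : dd1 A = d1 A := rfl
theorem dd2_eq (e : F2 O) : dd2 e = d2 e := rfl
theorem curv_eq (A : F1 O) : curv A = Fc A := rfl
theorem cov_eq (A : F1 O) (p : Pt) (k : Fin 4) (x : MM O) :
    P215Z.cov A p k x = Fm.cov k (A p k) x := rfl
theorem gauge_eq (A : F1 O) (g : Pt → (MM O)ˣ) : gauge A g = gauC g A := rfl
theorem eps4_eq : eps4 = e4 := rfl

theorem face_eq (p : Pt) (k : Fin 4) (c : Bool) : face p k c = fc p k c := by
  funext j
  by_cases h : j = k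
  · subst h
    rw [fc_self, face, Function.update_self]
    cases c <;> simp [sub_eq_add_neg]
  · rw [fc_ne h, face, Function.update_of_ne h]

theorem cx_iff {K : Set Pt} : Cx K ↔ Closed K :=
  ⟨fun h p hp k hk c => face_eq p k c ▸ h p hp k c hk,
    fun h p hp k c hk => (face_eq p k c).symm ▸ h p hp k hk c⟩

theorem adj_iff {p q : Pt} : P215Z.Adj p q ↔ Fm.Adj p q := by
  constructor
  · rintro (h | ⟨k, h | h⟩)
    · exact Or.inl (sub_eq_zero.1 h)
    · exact Or.inr ⟨k, true, by rw [fc, if_pos rfl, ← h, add_sub_cancel]⟩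
    · exact Or.inr ⟨k, false, by rw [fc, if_neg (by simp), sub_eq_add_neg, ← h, add_sub_cancel]⟩
  · rintro (rfl | ⟨k, s, rfl⟩)
    · exact Or.inl (sub_self _)
    · cases s
      · exact Or.inr ⟨k, Or.inr (by simp [fc])⟩
      · exact Or.inr ⟨k, Or.inl (by simp [fc])⟩

theorem affP_eq (π : Equiv.Perm (Fin 4)) (u : Pt) : affP π u = sym π.symm u := rfl
theorem pull_eq (π : Equiv.Perm (Fin 4)) (u : Pt) (A : F1 O) : pull π u A = symC π.symm u A := rfl

theorem holL_cons {A : Pt → Pt → (MM O)ˣ} [Algebra ℚ O] {B : Conn O} (h : ∀ p q, A p q = tr B p q)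
    (p : Pt) (l : List Pt) : holL A (p :: l) = hol B p l := by
  induction l generalizing p with
  | nil => rfl
  | cons q l ih => rw [holL, ih, h, hol]

open Classical in
/-- the form which vanishes outside of `K` and in the directions normal to the cells -/
def cl (K : Set Pt) (A : F1 O) : Conn O := fun p i => if p ∈ K ∧ Odd (p i) then A p i else 0

open Classical in
/-- the same for two-forms -/
def cl2 (K : Set Pt) (e : F2 O) : F2 O :=
  fun p i j => if p ∈ K ∧ Odd (p i) ∧ Odd (p j) then e p i j else 0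

variable {K : Set Pt} {A : F1 O} {e : F2 O} {a : Ideal O}

theorem cl_pos {p : Pt} {i : Fin 4} (hp : p ∈ K) (hi : Odd (p i)) : cl K A p i = A p i :=
  if_pos ⟨hp, hi⟩

theorem cl_neg {p : Pt} {i : Fin 4} (hi : ¬ Odd (p i)) : cl K A p i = 0 :=
  if_neg fun h => hi h.2

theorem cl2_pos {p : Pt} {i j : Fin 4} (hp : p ∈ K) (hi : Odd (p i)) (hj : Odd (p j)) :
    cl2 K e p i j = e p i j := if_pos ⟨hp, hi, hj⟩

theorem cl_mem (h : In1 K a A) (p : Pt) (i : Fin 4) : cl K A p i ∈ MC a := by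
  unfold cl
  split_ifs with h1
  · exact h p h1.1 i h1.2
  · exact zero_mem _

theorem cl2_mem (h : In2 K a e) (p : Pt) (i j : Fin 4) : cl2 K e p i j ∈ MC a := by
  unfold cl2
  split_ifs with h1
  · exact h p h1.1 i j h1.2.1 h1.2.2
  · exact zero_mem _

theorem cl_add (A B : F1 O) : cl K (A + B) = cl K A + cl K B := by
  funext p i
  simp only [cl, Pi.add_apply]
  split_ifs <;> simp

theorem cl_sub (A B : F1 O) : cl K (A - B) = cl K A - cl K B := by
  funext p i
  simp only [cl, Pi.sub_apply]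
  split_ifs <;> simp

theorem odd_fc_ne {p : Pt} {i k : Fin 4} (h : i ≠ k) (s : Bool) : Odd (fc p k s i) ↔ Odd (p i) := by
  rw [fc_ne h]

theorem cmp_of_good0 {g : F0 O} (h : Good0 K g) : Cmp K ∅ g :=
  ⟨fun _ _ _ hi => absurd hi (by simp),
    fun p hp k hk => h.indep p hp k (Int.not_odd_iff_even.1 hk),
    fun p hp k _ hk c => by rw [← face_eq, h.compat p hp k c hk]; rfl⟩

theorem good0_of_cmp {g : F0 O} (h : Cmp K ∅ g) : Good0 K g :=
  ⟨fun p hp k hk => h.cst p hp k (Int.not_odd_iff_even.2 hk),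
    fun p hp k c hk => by rw [face_eq, ← h.face p hp k (by simp) hk c]; rfl⟩

theorem is1_cl (hK : Cx K) (h : Good1 K A) : Is1 K (cl K A) := fun i =>
  ⟨fun p _ j hj h1 => by rw [Finset.mem_singleton.1 hj] at h1; exact cl_neg h1,
    fun p hp k hk => by
      by_cases hi : Odd (p i)
      · rw [cl_pos hp hi]; exact h.indep p hp i k hi (Int.not_odd_iff_even.1 hk)
      · rw [cl_neg hi, map_zero],
    fun p hp k hk h1 c => by
      have hik : i ≠ k := fun e => hk (by simp [e])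
      by_cases hi : Odd (p i)
      · rw [cl_pos hp hi, cl_pos (cx_iff.1 hK p hp k h1 c) ((odd_fc_ne hik c).2 hi), ← face_eq,
          h.compat p hp k c i h1 hi hik]
        rfl
      · rw [cl_neg hi, cl_neg (mt (odd_fc_ne hik c).1 hi), map_zero]⟩

theorem good1_of_is1 (h : Is1 K A) : Good1 K A :=
  ⟨fun p hp i j _ hj => (h i).cst p hp j (Int.not_odd_iff_even.2 hj),
    fun p hp k c i hk _ hik => by
      rw [face_eq, ← (h i).face p hp k (by simpa using hik.symm) hk c]; rfl⟩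

theorem isConn_cl (hK : Cx K) (h : Good1 K A) (h' : In1 K a A) : IsConn K a (cl K A) :=
  ⟨is1_cl hK h, cl_mem h'⟩

theorem nl_cl (ha : IsNilpotent a) (h' : In1 K a A) (p : Pt) (i : Fin 4) : Nl (cl K A p i) :=
  Nl.of ha (cl_mem h' p i)

theorem good2_of_is2 (h : Is2 K e) : Good2 K e :=
  ⟨fun p _ i j _ _ => h.skew p j i,
    fun p hp i j k _ _ hk => (h.cmp i j).cst p hp k (Int.not_odd_iff_even.2 hk),
    fun p hp k c i j hk _ _ hi hj => by
      rw [face_eq, ← (h.cmp i j).face p hp k (by simp [hi.symm, hj.symm]) hk c]; rfl⟩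

theorem Fc_cl {p : Pt} {i j : Fin 4} (hp : p ∈ K) (hi : Odd (p i)) (hj : Odd (p j)) :
    Fc (cl K A) p i j = curv A p i j := by
  rw [Fc, cl_pos hp hi, cl_pos hp hj]; rfl

variable [Algebra ℚ O] [Algebra ℚ O']

theorem is2_cl2 (hK : Cx K) (h : Good2 K e) : Is2 K (cl2 K e) := by
  have hs : ∀ p i j, cl2 K e p j i = -cl2 K e p i j := by
    intro p i j
    unfold cl2
    by_cases h1 : p ∈ K ∧ Odd (p i) ∧ Odd (p j)
    · rw [if_pos h1, if_pos ⟨h1.1, h1.2.2, h1.2.1⟩, h.anti p h1.1 j i h1.2.2 h1.2.1]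
    · rw [if_neg h1, if_neg fun h2 => h1 ⟨h2.1, h2.2.2, h2.2.1⟩, neg_zero]
  refine ⟨fun i j => ⟨fun p _ k hk h1 => if_neg fun h2 => h1 ?_, fun p hp k hk => ?_,
    fun p hp k hk h1 c => ?_⟩, hs, fun p i => ?_⟩
  · rcases Finset.mem_insert.1 hk with rfl | hk
    · exact h2.2.1
    · rw [Finset.mem_singleton.1 hk]; exact h2.2.2
  · unfold cl2
    split_ifs with h2
    · exact h.indep p hp i j k h2.2.1 h2.2.2 (Int.not_odd_iff_even.1 hk)
    · exact map_zero _
  · have hi : i ≠ k := fun e => hk (by simp [e])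
    have hj : j ≠ k := fun e => hk (by simp [e])
    by_cases h2 : Odd (p i) ∧ Odd (p j)
    · rw [cl2_pos hp h2.1 h2.2, cl2_pos (cx_iff.1 hK p hp k h1 c) ((odd_fc_ne hi c).2 h2.1)
        ((odd_fc_ne hj c).2 h2.2), ← face_eq, h.compat p hp k c i j h1 h2.1 h2.2 hi hj]
      rfl
    · rw [cl2, cl2, if_neg fun h3 => h2 h3.2, if_neg, map_zero]
      rw [odd_fc_ne hi, odd_fc_ne hj]
      exact fun h3 => h2 h3.2
  · have h1 : (2 : ℚ) • cl2 K e p i i = 0 := by
      rw [two_smul]; exact add_eq_zero_iff_eq_neg.2 (hs p i i)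
    have h2 := congrArg (fun x => (2⁻¹ : ℚ) • x) h1
    simpa [smul_smul] using h2

theorem itg_eq : (itg : RR O →ₗ[O] O) = II := by
  refine (basisMonomials (Fin 4) O).ext fun s => ?_
  rw [itg, Module.Basis.constr_basis, coe_basisMonomials, II_monomial]
  simp [Algebra.smul_def]

omit [Algebra ℚ O] in
theorem inn_eq (A : F1 O) (p : Pt) (k : Fin 4) (c : Bool) : inn A p k c = step k c (A p k) := rfl

theorem step_eq (A : F1 O) (p q : Pt) : P215Z.step A p q = tr A p q := by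
  unfold P215Z.step
  split_ifs with h1 h2
  · have h := h1.choose_spec
    generalize h1.choose = x at h
    obtain ⟨h, rfl⟩ := h
    rw [face_eq, tr_up A h, inn_eq]
  · have h := h2.choose_spec
    generalize h2.choose = x at h
    obtain ⟨h, rfl⟩ := h
    rw [face_eq, tr_down A h, inn_eq]
  · rcases tr_cases p q with h | ⟨k, s, h, rfl⟩ | ⟨k, s, h, rfl⟩
    · rw [tr_of_not A h]
    · exact absurd ⟨(k, s), h, (face_eq _ _ _).symm⟩ h2
    · exact absurd ⟨(k, s), h, (face_eq _ _ _).symm⟩ h1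

theorem step_eq_cl {p q : Pt} (hp : p ∈ K) (hq : q ∈ K) :
    P215Z.step A p q = tr (cl K A) p q := by
  rw [step_eq]
  rcases tr_cases p q with h | ⟨k, s, h, rfl⟩ | ⟨k, s, h, rfl⟩
  · rw [tr_of_not _ h, tr_of_not _ h]
  · rw [tr_down _ h, tr_down _ h, cl_pos hp h]
  · rw [tr_up _ h, tr_up _ h, cl_pos hq h]

theorem lg_eq' {R : Type} [Ring R] [Algebra ℚ R] {u : R} {N : ℕ} (h : (u - 1) ^ N = 0) :
    P215Z.lg u = TrLog.lg N (u - 1) := by
  rw [P215Z.lg, TrLog.lg, finsum_eq_sum_of_support_subset (s := Finset.range N)]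
  intro j hj
  by_contra h1
  refine hj ?_
  have h2 : N ≤ j + 1 := by simp at h1; omega
  simp only [pow_eq_zero_of_le h2 h, smul_zero]

theorem lg_eq {R : Type} [Ring R] [Algebra ℚ R] {u : R} (h : IsNilpotent (u - 1)) :
    P215Z.lg u = Fm.lg u := by
  obtain ⟨N, hN⟩ := h
  rw [lg_eq' hN, Fm.lg_eq hN]

theorem sum_eps {R : Type} [CommRing R] (T : Fin 4 → Fin 4 → Fin 4 → R) (l : Fin 4) :
    ∑ i, ∑ j, ∑ k, eps4 l i j k • T i j k = (-1) ^ (l : ℕ) *
      (T (l.succAbove 0) (l.succAbove 1) (l.succAbove 2) +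
        T (l.succAbove 1) (l.succAbove 2) (l.succAbove 0) +
        T (l.succAbove 2) (l.succAbove 0) (l.succAbove 1) -
        T (l.succAbove 1) (l.succAbove 0) (l.succAbove 2) -
        T (l.succAbove 0) (l.succAbove 2) (l.succAbove 1) -
        T (l.succAbove 2) (l.succAbove 1) (l.succAbove 0)) := by
  fin_cases l <;> simp [Fin.sum_univ_four, eps4, Fin.succAbove, Fin.lt_def] <;> ring

theorem csd_eq (A : F1 O) (τ : Pt) (l : Fin 4) : csd A τ l =
    (-1) ^ (l : ℕ) * cs (l.succAbove 0) (l.succAbove 1) (l.succAbove 2) (A τ) := by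
  rw [csd, sum_eps]
  congr 1
  generalize l.succAbove 0 = i
  generalize l.succAbove 1 = j
  generalize l.succAbove 2 = k
  have h : 3 * algebraMap ℚ (Py O) (2 / 3) = 2 := by
    rw [← map_ofNat (algebraMap ℚ (Py O)) 3, ← map_mul, ← map_ofNat (algebraMap ℚ (Py O)) 2]
    exact congrArg _ (by norm_num)
  have c1 := Matrix.trace_mul_cycle (A τ i) (A τ j) (A τ k)
  have c2 := Matrix.trace_mul_cycle (A τ k) (A τ i) (A τ j)
  have c3 := Matrix.trace_mul_cycle (A τ i) (A τ k) (A τ j)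
  have c4 := Matrix.trace_mul_cycle (A τ j) (A τ i) (A τ k)
  simp only [cs, w12, cv, pd_eq, Matrix.trace_add, Matrix.trace_smul, Matrix.trace_sub,
    mul_add, mul_sub, ← mul_assoc]
  simp only [Algebra.smul_def (2 / 3 : ℚ)]
  rw [← c2, ← c1, ← c4, ← c3]
  linear_combination ((A τ i * A τ j * A τ k).trace - (A τ i * A τ k * A τ j).trace) * h

omit [Algebra ℚ O] in
/-- the sum in the first variation of `CS` -/
theorem sum_eps_w12 (η : Fin 4 → Mt O) (B : Fin 4 → Fin 4 → Mt O) (h : ∀ i j, B j i = -B i j)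
    (l : Fin 4) : ∑ i, ∑ j, ∑ k, eps4 l i j k • (η i * B j k).trace =
      (-1) ^ (l : ℕ) * (2 * w12 (l.succAbove 0) (l.succAbove 1) (l.succAbove 2) η B) := by
  rw [sum_eps, w12, h (l.succAbove 2) (l.succAbove 0), h (l.succAbove 1) (l.succAbove 2),
    h (l.succAbove 0) (l.succAbove 1)]
  simp only [mul_neg, Matrix.trace_neg, Matrix.trace_add]
  ring

theorem pairD_eq (e e' : F2 O) (p : Pt) (h : ∀ i j, e p j i = -e p i j)
    (h' : ∀ i j, e' p j i = -e' p i j) : pairD e e' p = w22 (e p) (e' p) := by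
  have h4 : (1 / 4 : ℚ) • ((4 : Py O) * w22 (e p) (e' p)) = w22 (e p) (e' p) := by
    rw [← map_ofNat (algebraMap ℚ (Py O)) 4, ← Algebra.smul_def, smul_smul]
    norm_num
  rw [← h4, pairD]
  congr 1
  have key : ∀ T : Fin 4 → Fin 4 → Fin 4 → Fin 4 → Py O,
      ∑ i, ∑ j, ∑ k, ∑ l, eps4 i j k l • T i j k l =
      (T 0 1 2 3 + T 0 2 3 1 + T 0 3 1 2 - T 0 2 1 3 - T 0 1 3 2 - T 0 3 2 1) -
      (T 1 0 2 3 + T 1 2 3 0 + T 1 3 0 2 - T 1 2 0 3 - T 1 0 3 2 - T 1 3 2 0) +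
      (T 2 0 1 3 + T 2 1 3 0 + T 2 3 0 1 - T 2 1 0 3 - T 2 0 3 1 - T 2 3 1 0) -
      (T 3 0 1 2 + T 3 1 2 0 + T 3 2 0 1 - T 3 1 0 2 - T 3 0 2 1 - T 3 2 1 0) := by
    intro T
    simp [Fin.sum_univ_four, eps4]
    ring
  rw [key fun i j k l => (e p i j * e' p k l).trace]
  simp only [w22, h 0 1, h 0 2, h 0 3, h 1 2, h 1 3, h 2 3, h' 0 1, h' 0 2, h' 0 3, h' 1 2, h' 1 3,
    h' 2 3, mul_neg, neg_mul, neg_neg, Matrix.trace_neg, Matrix.trace_add, Matrix.trace_sub]
  ring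

omit [Algebra ℚ O] in
theorem Bd_eq (X : Finset Pt) (f : Pt → Fin 4 → O) :
    Bd X f = bd3 (X.image cell) fun τ l => (-1) ^ (l : ℕ) * f τ l := by
  rw [Bd, bd3, Finset.sum_image]
  · refine Finset.sum_congr rfl fun q _ => Finset.sum_congr rfl fun l _ => ?_
    rw [face_eq, face_eq, ← mul_sub, ← mul_assoc, ← mul_pow]
    simp
  · intro p _ q _ h
    funext j
    have h1 := congrFun h j
    simp only [cell] at h1
    omega

theorem CS_eq (X : Finset Pt) (A : F1 O) : CS X A = bd3 (X.image cell) (csI A) := by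
  rw [CS, Bd_eq]
  refine congrArg (bd3 _) (funext fun τ => funext fun l => ?_)
  have h : ((-1 : Py O)) ^ (l : ℕ) = C ((-1 : O) ^ (l : ℕ)) := by simp
  rw [csd_eq, itg_eq, h, II_C_mul, ← mul_assoc, ← mul_pow, csI]
  simp

end Vale.Agent.P215Z.Fm.Br
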