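import Vale.Agent.P215Z.Fm.Can

/-!
# P215, forms: the Chern-Simons form, Stokes' formula, the first variation
-/

set_option linter.unusedSectionVars false

noncomputable section

namespace Vale.Agent.P215Z.Fm

open MvPolynomial

variable {O O' : Type} [CommRing O] [CommRing O']

/-! ### pointwise identities -/

/-- the exterior derivative of a scalar two-form -/
def d2S (β : Fin 4 → Fin 4 → Py O) (i j k : Fin 4) : Py O :=
  pderiv i (β j k) + pderiv j (β k i) + pderiv k (β i j)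

/-- the trace of the product of two one-forms -/
def w11 (x y : Fin 4 → Mt O) (i j : Fin 4) : Py O := (x i * y j - x j * y i).trace

theorem d_cs (B : Fin 4 → Mt O) :
    pderiv 0 (cs 1 2 3 B) - pderiv 1 (cs 0 2 3 B) + pderiv 2 (cs 0 1 3 B) -
      pderiv 3 (cs 0 1 2 B) =
    w22 (fun a b => cv a b (B a) (B b)) (fun a b => cv a b (B a) (B b)) := by
  simp only [cs, w12, w22, cv, map_sub, ← trace_dM, map_add, dM_mul, dM_comm 1 0, dM_comm 2 0,
    dM_comm 3 0, dM_comm 2 1, dM_comm 3 1, dM_comm 3 2]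
  simp only [Matrix.trace_fin_two, Matrix.add_apply, Matrix.sub_apply, Matrix.mul_apply,
    Fin.sum_univ_two]
  ring

theorem cm_cs {D : O →+ O} (hD : ∀ a b, D (a * b) = D a * b + a * D b) (i j k : Fin 4)
    (B : Fin 4 → Mt O) : cm D (cs i j k B) =
      2 * w12 i j k (fun a => cmM D (B a)) (fun a b => cv a b (B a) (B b)) -
        d2S (w11 B fun a => cmM D (B a)) i j k := by
  simp only [cs, w12, w11, d2S, cv, map_sub, ← trace_dM, ← trace_cmM, map_add, dM_mul,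
    cmM_mul_of_leibniz hD, cmM_dM]
  simp only [Matrix.trace_fin_two, Matrix.add_apply, Matrix.sub_apply, Matrix.mul_apply,
    Fin.sum_univ_two]
  ring

/-- the derivative of the trace of a function times a two-form -/
theorem d2S_trace (u : Mt O) (x : Fin 4 → Mt O) (B : Fin 4 → Fin 4 → Mt O) (i j k : Fin 4) :
    d2S (fun a b => (u * B a b).trace) i j k = w12 i j k (fun a => cov a (x a) u) B +
      (u * (cov i (x i) (B j k) + cov j (x j) (B k i) + cov k (x k) (B i j))).trace := by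
  simp only [w12, d2S, cov, ← trace_dM, dM_mul]
  simp only [Matrix.trace_fin_two, Matrix.add_apply, Matrix.sub_apply, Matrix.mul_apply,
    Fin.sum_univ_two]
  ring

theorem w12_swap (i j k : Fin 4) (η : Fin 4 → Mt O) {B : Fin 4 → Fin 4 → Mt O}
    (h : ∀ a b, B b a = -B a b) : w12 j i k η B = -w12 i j k η B := by
  simp only [w12, h k i, h j k, h i j, mul_neg, Matrix.trace_add, Matrix.trace_neg]
  ring

theorem w12_cyc (i j k : Fin 4) (η : Fin 4 → Mt O) (B : Fin 4 → Fin 4 → Mt O) :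
    w12 j k i η B = w12 i j k η B := by
  simp only [w12, Matrix.trace_add]
  ring

theorem cs_swap (i j k : Fin 4) (B : Fin 4 → Mt O) : cs j i k B = -cs i j k B := by
  rw [cs, cs, w12_swap i j k B fun a b => cv_symm a b _ _]
  simp only [Matrix.trace_fin_two, Matrix.sub_apply, Matrix.mul_apply, Fin.sum_univ_two]
  ring

theorem cs_cyc (i j k : Fin 4) (B : Fin 4 → Mt O) : cs j k i B = cs i j k B := by
  rw [cs, cs, w12_cyc i j k B]
  simp only [Matrix.trace_fin_two, Matrix.sub_apply, Matrix.mul_apply, Fin.sum_univ_two]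
  ring

theorem w12_add_right (i j k : Fin 4) (η : Fin 4 → Mt O) (B B' : Fin 4 → Fin 4 → Mt O) :
    w12 i j k η (B + B') = w12 i j k η B + w12 i j k η B' := by
  simp only [w12, Pi.add_apply, mul_add, Matrix.trace_add]
  ring

theorem w12_sub_right (i j k : Fin 4) (η : Fin 4 → Mt O) (B B' : Fin 4 → Fin 4 → Mt O) :
    w12 i j k η (B - B') = w12 i j k η B - w12 i j k η B' := by
  simp only [w12, Pi.sub_apply, mul_sub, Matrix.trace_add, Matrix.trace_sub]
  ring

theorem w12_mem {b b' : Ideal O} {i j k : Fin 4} {η : Fin 4 → Mt O} {B : Fin 4 → Fin 4 → Mt O}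
    (h : ∀ a, η a ∈ MC b) (h1 : B j k ∈ MC b') (h2 : B k i ∈ MC b') (h3 : B i j ∈ MC b') :
    w12 i j k η B ∈ Cf (b * b') :=
  MI_trace (add_mem (add_mem (MC_mul (h i) h1) (MC_mul (h j) h2)) (MC_mul (h k) h3))

theorem w22_comm (B B' : Fin 4 → Fin 4 → Mt O) : w22 B B' = w22 B' B := by
  simp only [w22, Matrix.trace_add, Matrix.trace_sub, Matrix.trace_mul_comm (B' _ _)]
  ring

theorem w22_add_left (B B' B'' : Fin 4 → Fin 4 → Mt O) :
    w22 (B + B') B'' = w22 B B'' + w22 B' B'' := by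
  simp only [w22, Pi.add_apply, add_mul, Matrix.trace_add, Matrix.trace_sub]
  ring

theorem w22_mem {b b' : Ideal O} {B B' : Fin 4 → Fin 4 → Mt O} (h : ∀ i j, B i j ∈ MC b)
    (h' : ∀ i j, B' i j ∈ MC b') : w22 B B' ∈ Cf (b * b') :=
  MI_trace (add_mem (sub_mem (add_mem (add_mem (sub_mem (MC_mul (h _ _) (h' _ _))
    (MC_mul (h _ _) (h' _ _))) (MC_mul (h _ _) (h' _ _))) (MC_mul (h _ _) (h' _ _)))
    (MC_mul (h _ _) (h' _ _))) (MC_mul (h _ _) (h' _ _)))

/-- the square of `J + m` -/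
theorem w22_sq (F J : Fin 4 → Fin 4 → Mt O) :
    w22 F F = 2 * w22 J F - w22 J J + w22 (F - J) (F - J) := by
  simp only [w22, Pi.sub_apply, sub_mul, mul_sub, Matrix.trace_add, Matrix.trace_sub,
    Matrix.trace_mul_comm (F _ _) (J _ _)]
  ring

theorem map_w12 (χ : O →+* O') (i j k : Fin 4) (η : Fin 4 → Mt O) (B : Fin 4 → Fin 4 → Mt O) :
    map χ (w12 i j k η B) = w12 i j k (fun a => mapM χ (η a)) fun a b => mapM χ (B a b) := by
  simp only [w12, ← trace_mapM, map_add, map_mul]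

theorem map_cs (χ : O →+* O') (i j k : Fin 4) (B : Fin 4 → Mt O) :
    map χ (cs i j k B) = cs i j k fun a => mapM χ (B a) := by
  simp only [cs, map_sub, map_w12, ← trace_mapM, map_mul, mapM_cv]

theorem rename_w12 (σ : Equiv.Perm (Fin 4)) (i j k : Fin 4) (η : Fin 4 → Mt O)
    (B : Fin 4 → Fin 4 → Mt O) : rename σ (w12 (σ.symm i) (σ.symm j) (σ.symm k) η B) =
      w12 i j k (fun a => rnM σ (η (σ.symm a))) fun a b => rnM σ (B (σ.symm a) (σ.symm b)) := by
  simp only [w12, ← trace_rnM, map_add, map_mul]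

theorem rename_cs (σ : Equiv.Perm (Fin 4)) (i j k : Fin 4) (B : Fin 4 → Mt O) :
    rename σ (cs (σ.symm i) (σ.symm j) (σ.symm k) B) =
      cs i j k fun a => rnM σ (B (σ.symm a)) := by
  simp only [cs, w12, cv, map_sub, ← trace_rnM, map_mul, map_add, rnM_dM, Equiv.apply_symm_apply]

theorem cs_mem {a : Ideal O} {B : Fin 4 → Mt O} (h : ∀ i, B i ∈ MC a) (i j k : Fin 4) :
    cs i j k B ∈ Cf (a * a) := by
  have h1 : ∀ x y, cv x y (B x) (B y) ∈ MC a := fun x y =>
    Fc_mem (A := fun _ => B) (p := 0) h x y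
  exact sub_mem (w12_mem h (h1 _ _) (h1 _ _) (h1 _ _)) (MI_trace (MC_mul (h i)
    (sub_mem (MI_mul_left _ (h k)) (MI_mul_left _ (h j)))))

/-! ### compatibility -/

section Cmp

variable {K : Set Pt}

theorem CmpS.add {I : Finset (Fin 4)} {v w : Pt → Py O} (h : CmpS K I v) (h' : CmpS K I w) :
    CmpS K I fun p => v p + w p :=
  ⟨fun p hp i hi h1 => by rw [h.zero p hp i hi h1, h'.zero p hp i hi h1, add_zero],
    fun p hp k h1 => by rw [map_add, h.cst p hp k h1, h'.cst p hp k h1, add_zero],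
    fun p hp k hk h1 ε => by rw [map_add, h.face p hp k hk h1, h'.face p hp k hk h1]⟩

theorem CmpS.sub {I : Finset (Fin 4)} {v w : Pt → Py O} (h : CmpS K I v) (h' : CmpS K I w) :
    CmpS K I fun p => v p - w p :=
  ⟨fun p hp i hi h1 => by rw [h.zero p hp i hi h1, h'.zero p hp i hi h1, sub_zero],
    fun p hp k h1 => by rw [map_sub, h.cst p hp k h1, h'.cst p hp k h1, sub_zero],
    fun p hp k hk h1 ε => by rw [map_sub, h.face p hp k hk h1, h'.face p hp k hk h1]⟩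

theorem Is1.w12 {η : Conn O} {B : Pt → Fin 4 → Fin 4 → Mt O} (h : Is1 K η) (h' : Is2 K B)
    (i j k : Fin 4) : CmpS K {i, j, k} fun p => w12 i j k (η p) (B p) :=
  (((((h i).mul (h'.cmp j k)).of_eq (by ext; simp; tauto)).add
    (((h j).mul (h'.cmp k i)).of_eq (by ext; simp; tauto))).add
    (((h k).mul (h'.cmp i j)).of_eq (by ext; simp; tauto))).trace

theorem Is1.cs {A : Conn O} (h : Is1 K A) (i j k : Fin 4) :
    CmpS K {i, j, k} fun p => cs i j k (A p) :=
  (h.w12 h.Fc i j k).sub (((h i).mul (h.br h j k)).of_eq (by ext; simp; tauto)).trace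

theorem Is1.w11 {A η : Conn O} (h : Is1 K A) (h' : Is1 K η) (i j : Fin 4) :
    CmpS K {i, j} fun p => w11 (A p) (η p) i j :=
  ((((h i).mul (h' j)).of_eq (by ext; simp)).sub
    (((h j).mul (h' i)).of_eq (by ext; simp; tauto))).trace

end Cmp

/-! ### boundary sums -/

section Bd

variable {Y Y' : Finset Pt} {f g : Pt → Fin 4 → O}

theorem bd3_union (h : Disjoint Y Y') (f : Pt → Fin 4 → O) :
    bd3 (Y ∪ Y') f = bd3 Y f + bd3 Y' f := Finset.sum_union h

theorem bd3_sdiff (h : Y' ⊆ Y) (f : Pt → Fin 4 → O) : bd3 (Y \ Y') f = bd3 Y f - bd3 Y' f :=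
  Finset.sum_sdiff_eq_sub h

theorem map_bd3 (D : O →+ O') (Y : Finset Pt) (f : Pt → Fin 4 → O) :
    D (bd3 Y f) = bd3 Y fun τ m => D (f τ m) := by
  have h : ∀ (R : Type) [CommRing R] (n : ℕ) (x : R), (-1) ^ n * x = ((-1 : ℤ) ^ n) • x := by
    intro R _ n x
    simp
  simp only [bd3, map_sum, h, map_zsmul, map_sub]

theorem bd3_add (Y : Finset Pt) (f g : Pt → Fin 4 → O) :
    bd3 Y (fun τ m => f τ m + g τ m) = bd3 Y f + bd3 Y g := by
  simp only [bd3, ← Finset.sum_add_distrib]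
  refine Finset.sum_congr rfl fun p _ => Finset.sum_congr rfl fun m _ => ?_
  ring

theorem bd3_sub (Y : Finset Pt) (f g : Pt → Fin 4 → O) :
    bd3 Y (fun τ m => f τ m - g τ m) = bd3 Y f - bd3 Y g := by
  simp only [bd3, ← Finset.sum_sub_distrib]
  refine Finset.sum_congr rfl fun p _ => Finset.sum_congr rfl fun m _ => ?_
  ring

theorem bd3_mul (c : O) (Y : Finset Pt) (f : Pt → Fin 4 → O) :
    bd3 Y (fun τ m => c * f τ m) = c * bd3 Y f := by
  simp only [bd3, Finset.mul_sum]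
  refine Finset.sum_congr rfl fun p _ => Finset.sum_congr rfl fun m _ => ?_
  ring

theorem bd3_sum {ι : Type} (s : Finset ι) (Y : Finset Pt) (u : ι → Pt → Fin 4 → O) :
    bd3 Y (fun τ m => ∑ x ∈ s, u x τ m) = ∑ x ∈ s, bd3 Y (u x) := by
  classical
  induction s using Finset.induction_on with
  | empty => simp [bd3]
  | insert x s hx ih => simp only [Finset.sum_insert hx, bd3_add, ih]

/-- the coefficient of a three-cell in the boundary of `Y` -/
def cf3 (Y : Finset Pt) (τ : Pt) (m : Fin 4) : ℤ :=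
  (-1) ^ (m : ℕ) * ((if fc τ m false ∈ Y then 1 else 0) - (if fc τ m true ∈ Y then 1 else 0))

theorem cf3_eq_zero {τ : Pt} {m : Fin 4} (h : ¬ OnBd3 Y τ m) : cf3 Y τ m = 0 := by
  rw [OnBd3, not_not] at h
  simp only [cf3, h, sub_self, mul_zero]

theorem bd3_eq_sum {T : Finset Pt} (hT : ∀ p ∈ Y, ∀ m ε, fc p m ε ∈ T) (f : Pt → Fin 4 → O) :
    bd3 Y f = ∑ τ ∈ T, ∑ m : Fin 4, (cf3 Y τ m : O) * f τ m := by
  have key : ∀ (m : Fin 4) (ε : Bool), ∑ p ∈ Y, f (fc p m ε) m =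
      ∑ τ ∈ T, if fc τ m (!ε) ∈ Y then f τ m else 0 := by
    intro m ε
    rw [← Finset.sum_filter]
    refine Finset.sum_bij' (fun p _ => fc p m ε) (fun τ _ => fc τ m (!ε)) (fun p hp => ?_)
      (fun τ hτ => (Finset.mem_filter.1 hτ).2) (fun p _ => fc_fc p m ε)
      (fun τ _ => fc_fc' τ m ε) fun p _ => rfl
    exact Finset.mem_filter.2 ⟨hT p hp m ε, by rwa [fc_fc]⟩
  rw [bd3, Finset.sum_comm, Finset.sum_comm (s := T)]
  refine Finset.sum_congr rfl fun m _ => ?_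
  rw [← Finset.mul_sum, Finset.sum_sub_distrib, key, key, ← Finset.sum_sub_distrib,
    Finset.mul_sum]
  refine Finset.sum_congr rfl fun τ _ => ?_
  simp only [cf3, Bool.not_true, Bool.not_false]
  split_ifs <;> simp

/-- all faces of the cells of `Y` -/
def faces3 (Y : Finset Pt) : Finset Pt :=
  (Y ×ˢ (Finset.univ : Finset (Fin 4 × Bool))).image fun x => fc x.1 x.2.1 x.2.2

theorem mem_faces3 {p : Pt} (hp : p ∈ Y) (m : Fin 4) (ε : Bool) : fc p m ε ∈ faces3 Y :=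
  Finset.mem_image.2 ⟨(p, m, ε), by simpa using hp, rfl⟩

theorem bd3_mem {b : Ideal O} (h : ∀ τ m, OnBd3 Y τ m → f τ m ∈ b) : bd3 Y f ∈ b := by
  rw [bd3_eq_sum (T := faces3 Y) fun p hp => mem_faces3 hp]
  refine Ideal.sum_mem _ fun τ _ => Ideal.sum_mem _ fun m _ => ?_
  by_cases h1 : OnBd3 Y τ m
  · exact Ideal.mul_mem_left _ _ (h τ m h1)
  · rw [cf3_eq_zero h1, Int.cast_zero, zero_mul]; exact zero_mem _

theorem bd3_sub_mem {b : Ideal O} (h : ∀ τ m, OnBd3 Y τ m → f τ m - g τ m ∈ b) :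
    bd3 Y f - bd3 Y g ∈ b := by
  rw [← bd3_sub]; exact bd3_mem h

theorem bd3_congr (h : ∀ τ m, OnBd3 Y τ m → f τ m = g τ m) : bd3 Y f = bd3 Y g :=
  sub_eq_zero.1 (Ideal.mem_bot.1 (bd3_sub_mem fun τ m h1 => by
    rw [h τ m h1, sub_self]; exact zero_mem _))

theorem OnBd3.exists {τ : Pt} {m : Fin 4} (h : OnBd3 Y τ m) :
    ∃ s, fc τ m s ∈ Y ∧ fc τ m (!s) ∉ Y := by
  by_cases h1 : fc τ m true ∈ Y
  · exact ⟨true, h1, fun h2 => h ⟨fun _ => h2, fun _ => h1⟩⟩
  · refine ⟨false, ?_, h1⟩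
    by_contra h2
    exact h ⟨fun h3 => absurd h3 h1, fun h3 => absurd h3 h2⟩

theorem OnBd3.odd (hY : ∀ p ∈ Y, ∀ k, Odd (p k)) {τ : Pt} {m : Fin 4} (h : OnBd3 Y τ m)
    {j : Fin 4} (hj : j ≠ m) : Odd (τ j) := by
  obtain ⟨s, hs, -⟩ := h.exists
  have h1 := hY _ hs j
  rwa [fc_ne hj] at h1

theorem OnBd3.not_odd (hY : ∀ p ∈ Y, ∀ k, Odd (p k)) {τ : Pt} {m : Fin 4} (h : OnBd3 Y τ m) :
    ¬ Odd (τ m) := by
  obtain ⟨s, hs, -⟩ := h.exists
  exact (odd_fc τ m s).1 (hY _ hs m)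

/-- the boundary of a boundary vanishes -/
theorem bd3_dd (Y : Finset Pt) (h : Pt → Fin 4 → Fin 4 → O) (hs : ∀ p i j, h p j i = -h p i j) :
    bd3 Y (fun τ m =>
      (h (fc τ (m.succAbove 0) true) (m.succAbove 1) (m.succAbove 2) -
        h (fc τ (m.succAbove 0) false) (m.succAbove 1) (m.succAbove 2)) +
      (h (fc τ (m.succAbove 1) true) (m.succAbove 2) (m.succAbove 0) -
        h (fc τ (m.succAbove 1) false) (m.succAbove 2) (m.succAbove 0)) +
      (h (fc τ (m.succAbove 2) true) (m.succAbove 0) (m.succAbove 1) -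
        h (fc τ (m.succAbove 2) false) (m.succAbove 0) (m.succAbove 1))) = 0 := by
  refine Finset.sum_eq_zero fun p _ => ?_
  have e00 : (0 : Fin 4).succAbove 0 = 1 := rfl
  have e01 : (0 : Fin 4).succAbove 1 = 2 := rfl
  have e02 : (0 : Fin 4).succAbove 2 = 3 := rfl
  have e10 : (1 : Fin 4).succAbove 0 = 0 := rfl
  have e11 : (1 : Fin 4).succAbove 1 = 2 := rfl
  have e12 : (1 : Fin 4).succAbove 2 = 3 := rfl
  have e20 : (2 : Fin 4).succAbove 0 = 0 := rfl
  have e21 : (2 : Fin 4).succAbove 1 = 1 := rfl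
  have e22 : (2 : Fin 4).succAbove 2 = 3 := rfl
  have e30 : (3 : Fin 4).succAbove 0 = 0 := rfl
  have e31 : (3 : Fin 4).succAbove 1 = 1 := rfl
  have e32 : (3 : Fin 4).succAbove 2 = 2 := rfl
  simp only [Fin.sum_univ_four, e00, e01, e02, e10, e11, e12, e20, e21, e22, e30, e31, e32,
    fc_comm p 1 0, fc_comm p 2 0, fc_comm p 3 0, fc_comm p 2 1, fc_comm p 3 1, fc_comm p 3 2,
    hs _ 1 3, hs _ 0 3, hs _ 0 2]
  simp only [Fin.val_zero, Fin.val_one, Fin.val_two, show ((3 : Fin 4) : ℕ) = 3 from rfl]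
  ring

end Bd

/-- the sign of a list of four directions -/
def e4 (i j k l : Fin 4) : ℤ :=
  ((j : ℤ) - i) * ((k : ℤ) - i) * ((l : ℤ) - i) * ((k : ℤ) - j) * ((l : ℤ) - j) * ((l : ℤ) - k) / 12

/-- orientation preserving permutations -/
def EvenP (σ : Equiv.Perm (Fin 4)) : Prop :=
  ∀ m : Fin 4, e4 (σ m) (σ (m.succAbove 0)) (σ (m.succAbove 1)) (σ (m.succAbove 2)) =
    (-1) ^ (m : ℕ)

instance (σ : Equiv.Perm (Fin 4)) : Decidable (EvenP σ) := by unfold EvenP; infer_instance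

theorem alt3 (c : Fin 4 → Fin 4 → Fin 4 → O) (h1 : ∀ i j k, c j i k = -c i j k)
    (h2 : ∀ i j k, c j k i = c i j k) {m i j k : Fin 4} (h : e4 m i j k ≠ 0) :
    (e4 m i j k : O) * c i j k =
      (-1) ^ (m : ℕ) * c (m.succAbove 0) (m.succAbove 1) (m.succAbove 2) := by
  have key : ∀ m i j k : Fin 4, e4 m i j k ≠ 0 →
      (e4 m i j k = (-1) ^ (m : ℕ) ∧
        ((i, j, k) = (m.succAbove 0, m.succAbove 1, m.succAbove 2) ∨
        (i, j, k) = (m.succAbove 1, m.succAbove 2, m.succAbove 0) ∨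
        (i, j, k) = (m.succAbove 2, m.succAbove 0, m.succAbove 1))) ∨
      (e4 m i j k = -(-1) ^ (m : ℕ) ∧
        ((i, j, k) = (m.succAbove 1, m.succAbove 0, m.succAbove 2) ∨
        (i, j, k) = (m.succAbove 0, m.succAbove 2, m.succAbove 1) ∨
        (i, j, k) = (m.succAbove 2, m.succAbove 1, m.succAbove 0))) := by decide
  rcases key m i j k h with ⟨e, h3 | h3 | h3⟩ | ⟨e, h3 | h3 | h3⟩ <;>
    simp only [Prod.mk.injEq] at h3 <;> obtain ⟨rfl, rfl, rfl⟩ := h3 <;> rw [e] <;> push_cast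
  · rfl
  · rw [h2]
  · rw [← h2]
  · rw [h1]; ring
  · rw [h2 (m.succAbove 1), h1]; ring
  · rw [← h2, h1]; ring

variable [Algebra ℚ O] [Algebra ℚ O']

/-! ### Stokes' formula -/

section Stokes

variable {K : Set Pt} {Y : Finset Pt}

theorem stokes_cell {A : Conn O} (hA : Is1 K A) {p : Pt} (hp : p ∈ K) (ho : ∀ k, Odd (p k)) :
    II (w22 (Fc A p) (Fc A p)) =
      ∑ m : Fin 4, (-1) ^ (m : ℕ) * (csI A (fc p m true) m - csI A (fc p m false) m) := by
  have h : ∀ m : Fin 4, II (pderiv m (cs (m.succAbove 0) (m.succAbove 1) (m.succAbove 2) (A p))) =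
      csI A (fc p m true) m - csI A (fc p m false) m := by
    intro m
    have hm : m ∉ ({m.succAbove 0, m.succAbove 1, m.succAbove 2} : Finset (Fin 4)) := by
      revert m; decide
    rw [II_pderiv, (hA.cs _ _ _).face p hp m hm (ho m), (hA.cs _ _ _).face p hp m hm (ho m)]
    rfl
  have h1 := congrArg II (d_cs (A p))
  rw [map_sub, map_add, map_sub] at h1
  simp only [Fin.sum_univ_four, ← h]
  refine h1.symm.trans ?_
  simp only [Fin.val_zero, Fin.val_one, Fin.val_two, show ((3 : Fin 4) : ℕ) = 3 from rfl]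
  have e0 : cs ((0 : Fin 4).succAbove 0) ((0 : Fin 4).succAbove 1) ((0 : Fin 4).succAbove 2)
    (A p) = cs 1 2 3 (A p) := rfl
  have e1 : cs ((1 : Fin 4).succAbove 0) ((1 : Fin 4).succAbove 1) ((1 : Fin 4).succAbove 2)
    (A p) = cs 0 2 3 (A p) := rfl
  have e2 : cs ((2 : Fin 4).succAbove 0) ((2 : Fin 4).succAbove 1) ((2 : Fin 4).succAbove 2)
    (A p) = cs 0 1 3 (A p) := rfl
  have e3 : cs ((3 : Fin 4).succAbove 0) ((3 : Fin 4).succAbove 1) ((3 : Fin 4).succAbove 2)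
    (A p) = cs 0 1 2 (A p) := rfl
  rw [e0, e1, e2, e3]
  ring

/-- Stokes' formula for the Chern-Simons form -/
theorem stokes {A : Conn O} (hA : Is1 K A) (hY : ∀ p ∈ Y, ∀ k, Odd (p k)) (hK : ∀ p ∈ Y, p ∈ K) :
    bd3 Y (csI A) = ∑ p ∈ Y, II (w22 (Fc A p) (Fc A p)) :=
  Finset.sum_congr rfl fun p hp => (stokes_cell hA (hK p hp) (hY p hp)).symm

/-- exact forms integrate to zero over a boundary -/
theorem bd3_exact (hY : ∀ p ∈ Y, ∀ k, Odd (p k)) (hK : ∀ τ m, OnBd3 Y τ m → τ ∈ K)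
    {β : Pt → Fin 4 → Fin 4 → Py O} (hβ : ∀ i j, CmpS K {i, j} fun p => β p i j)
    (hs : ∀ p i j, β p j i = -β p i j) :
    bd3 Y (fun τ m => II (d2S (β τ) (m.succAbove 0) (m.succAbove 1) (m.succAbove 2))) = 0 := by
  rw [← bd3_dd Y (fun p i j => II (β p i j)) fun p i j => by rw [hs, map_neg]]
  refine bd3_congr fun τ m h => ?_
  have key : ∀ a b c : Fin 3, a ≠ b → a ≠ c →
      II (pderiv (m.succAbove a) (β τ (m.succAbove b) (m.succAbove c))) =
        II (β (fc τ (m.succAbove a) true) (m.succAbove b) (m.succAbove c)) -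
          II (β (fc τ (m.succAbove a) false) (m.succAbove b) (m.succAbove c)) := by
    intro a b c h1 h2
    have hm : m.succAbove a ∉ ({m.succAbove b, m.succAbove c} : Finset (Fin 4)) := by
      simp [h1, h2]
    have ho := h.odd hY (Fin.succAbove_ne m a)
    rw [II_pderiv, (hβ _ _).face τ (hK τ m h) _ hm ho, (hβ _ _).face τ (hK τ m h) _ hm ho]
  rw [d2S, map_add, map_add, key 0 1 2 (by decide) (by decide), key 1 2 0 (by decide) (by decide),
    key 2 0 1 (by decide) (by decide)]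

/-- the first variation of the Chern-Simons functional -/
theorem der_cs (hY : ∀ p ∈ Y, ∀ k, Odd (p k)) (hK : ∀ τ m, OnBd3 Y τ m → τ ∈ K) {A : Conn O}
    (hA : Is1 K A) {D : O →+ O} (hD : ∀ a b, D (a * b) = D a * b + a * D b) :
    D (bd3 Y (csI A)) = 2 * bd3 Y (w12I (cmC D A) (Fc A)) := by
  have h := bd3_exact hY hK (β := fun p => w11 (A p) (cmC D A p)) (hA.w11 (hA.cmC D))
    fun p i j => by rw [w11, w11, ← Matrix.trace_neg, neg_sub]
  rw [map_bd3, ← bd3_mul, ← sub_zero (bd3 Y fun τ m => 2 * _), ← h, ← bd3_sub]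
  congr 1
  funext τ m
  rw [csI, ← II_cm, cm_cs hD, map_sub, ← map_ofNat (C : O →+* Py O) 2, II_C_mul]
  rfl

/-- infinitesimal gauge invariance -/
theorem bd3_cov (hY : ∀ p ∈ Y, ∀ k, Odd (p k)) (hK : ∀ τ m, OnBd3 Y τ m → τ ∈ K) {A : Conn O}
    (hA : Is1 K A) {u : Pt → Mt O} (hu : Cmp K ∅ u) :
    bd3 Y (w12I (fun p i => cov i (A p i) (u p)) (Fc A)) = 0 := by
  rw [← bd3_exact hY hK (β := fun p a b => (u p * Fc A p a b).trace)
    (fun i j => ((hu.mul (hA.Fc.cmp i j)).of_eq (by simp)).trace)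
    fun p i j => by rw [hA.Fc.skew, mul_neg, Matrix.trace_neg]]
  refine congrArg (bd3 Y) (funext fun τ => funext fun m => ?_)
  rw [d2S_trace (u τ) (A τ), bianchi, mul_zero, Matrix.trace_zero, add_zero]
  rfl

theorem csI_mapC (χ : O →+* O') (A : Conn O) (τ : Pt) (m : Fin 4) :
    csI (mapC χ A) τ m = χ (csI A τ m) := by
  rw [csI, csI, ← II_map, map_cs]
  rfl

theorem bd3_csI_mapC (χ : O →+* O') (Y : Finset Pt) (A : Conn O) :
    bd3 Y (csI (mapC χ A)) = χ (bd3 Y (csI A)) := by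
  have h := map_bd3 (χ : O →+ O') Y (csI A)
  rw [AddMonoidHom.coe_coe] at h
  rw [h]
  refine congrArg (bd3 Y) (funext fun τ => funext fun m => ?_)
  rw [csI_mapC]

theorem csI_local {A A' : Conn O} {τ : Pt} (h : A τ = A' τ) (m : Fin 4) :
    csI A τ m = csI A' τ m := by
  rw [csI, csI, h]

theorem csI_mem {a : Ideal O} {A : Conn O} {τ : Pt} (h : ∀ i, A τ i ∈ MC a) (m : Fin 4) :
    csI A τ m ∈ a * a := II_mem (cs_mem h _ _ _)

theorem csI_symC {σ : Equiv.Perm (Fin 4)} (hσ : EvenP σ) (c : Pt) (A : Conn O) (τ : Pt)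
    (m : Fin 4) : (-1) ^ (m : ℕ) * csI (symC σ c A) τ m =
      (-1) ^ (σ m : ℕ) * csI A (sym σ c τ) (σ m) := by
  have h1 := rename_cs σ.symm (m.succAbove 0) (m.succAbove 1) (m.succAbove 2) (A (sym σ c τ))
  rw [Equiv.symm_symm] at h1
  have h2 := alt3 (fun i j k => II (cs i j k (A (sym σ c τ))))
    (fun i j k => by rw [cs_swap, map_neg]) (fun i j k => by rw [cs_cyc])
    (m := σ m) (i := σ (m.succAbove 0)) (j := σ (m.succAbove 1)) (k := σ (m.succAbove 2))
    (by rw [hσ m]; exact pow_ne_zero _ (by decide))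
  rw [hσ m] at h2
  push_cast at h2
  rw [csI, csI, ← h2, ← II_rename σ.symm (cs (σ _) _ _ _), h1]
  rfl

theorem bd3_symC {σ : Equiv.Perm (Fin 4)} (hσ : EvenP σ) (c : Pt) (A : Conn O) (Y : Finset Pt) :
    bd3 Y (csI (symC σ c A)) = bd3 (Y.image (sym σ c)) (csI A) := by
  rw [bd3, bd3, Finset.sum_image fun p _ q _ h => sym_injective σ c h]
  refine Finset.sum_congr rfl fun p _ => ?_
  rw [← Equiv.sum_comp σ fun m : Fin 4 => (-1) ^ (m : ℕ) *
    (csI A (fc (sym σ c p) m true) m - csI A (fc (sym σ c p) m false) m)]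
  refine Finset.sum_congr rfl fun m _ => ?_
  rw [mul_sub, mul_sub, csI_symC hσ, csI_symC hσ, sym_fc, sym_fc]

end Stokes

end Vale.Agent.P215Z.Fm
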