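import Vale.Agent.P215Z.Fm.Bridge

/-!
# P215, forms: finite variation and gauge invariance of the Chern-Simons functional
-/

noncomputable section

namespace Vale.Agent.P215Z.Fm

open MvPolynomial

variable {O O' : Type} [CommRing O] [CommRing O']

theorem cs_add (i j k : Fin 4) (B η : Fin 4 → Mt O) : cs i j k (B + η) = cs i j k B +
    2 * w12 i j k η (fun a b => cv a b (B a) (B b)) - d2S (w11 B η) i j k +
      (w12 i j k η (fun a b => dM a (η b) - dM b (η a) + (B a * η b - η b * B a) +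
        (η a * B b - B b * η a)) + 2 * (η i * (η j * η k - η k * η j)).trace) := by
  simp only [cs, w12, w11, d2S, cv, map_sub, ← trace_dM, map_add, dM_mul, Pi.add_apply]
  simp only [Matrix.trace_fin_two, Matrix.add_apply, Matrix.sub_apply, Matrix.mul_apply,
    Fin.sum_univ_two]
  ring

theorem cs_congr {i j k : Fin 4} {B B' : Fin 4 → Mt O} (hi : B i = B' i) (hj : B j = B' j)
    (hk : B k = B' k) : cs i j k B = cs i j k B' := by
  simp only [cs, w12, hi, hj, hk]

theorem cmM_inv {D : O →+ O} (hD : ∀ a b, D (a * b) = D a * b + a * D b) (T : (Mt O)ˣ) :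
    cmM D (T⁻¹).1 = -((T⁻¹).1 * cmM D T.1 * (T⁻¹).1) := by
  have h := cmM_mul_of_leibniz hD (T⁻¹).1 T.1
  rw [Units.inv_mul, cmM_one_of_leibniz hD] at h
  have h2 := congrArg (· * (T⁻¹).1) h
  simp only [zero_mul, add_mul, mul_assoc, Units.mul_inv, mul_one] at h2
  rw [mul_assoc]
  exact eq_neg_of_add_eq_zero_left h2.symm

theorem cmM_gau {D : O →+ O} (hD : ∀ a b, D (a * b) = D a * b + a * D b) (k : Fin 4)
    (g : (Mt O)ˣ) {x : Mt O} (hx : cmM D x = 0) :
    cmM D (gau k g x) = cov k (gau k g x) ((g⁻¹).1 * cmM D g.1) := by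
  simp only [gau, cov, map_add, cmM_mul_of_leibniz hD, cmM_inv hD, hx, cmM_dM, dM_mul, dM_inv,
    mul_add, add_mul, mul_assoc, neg_mul, Units.mul_inv_cancel_left, zero_mul, zero_add]
  abel

theorem mapM_gau (χ : O →+* O') (k : Fin 4) {g : (Mt O)ˣ} {g' : (Mt O')ˣ}
    (h : mapM χ g.1 = g'.1) (x : Mt O) : mapM χ (gau k g x) = gau k g' (mapM χ x) := by
  simp only [gau, map_add, map_mul, map_inv_unit _ h, h, mapM_dM]

theorem gau_one (k : Fin 4) (x : Mt O) : gau k 1 x = x := by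
  simp [gau, dM_one]

variable [Algebra ℚ O] {K : Set Pt} {Y : Finset Pt}

theorem csI_congr {A A' : Conn O} {τ : Pt} {m : Fin 4} (h : ∀ i, i ≠ m → A τ i = A' τ i) :
    csI A τ m = csI A' τ m := by
  rw [csI, csI, cs_congr (h _ (Fin.succAbove_ne m 0)) (h _ (Fin.succAbove_ne m 1))
    (h _ (Fin.succAbove_ne m 2))]

theorem bd3_var (hY : ∀ p ∈ Y, ∀ k, Odd (p k)) (hK : ∀ τ m, OnBd3 Y τ m → τ ∈ K) {A δ : Conn O}
    (hA : Is1 K A) (hδ : Is1 K δ) {b : Ideal O} (hb : ∀ p i, δ p i ∈ MC b) :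
    bd3 Y (csI (A + δ)) - bd3 Y (csI A) - 2 * bd3 Y (w12I δ (Fc A)) ∈ b * b := by
  have h := bd3_exact hY hK (β := fun p => w11 (A p) (δ p)) (hA.w11 hδ)
    fun p i j => by rw [w11, w11, ← Matrix.trace_neg, neg_sub]
  rw [← add_zero (_ - _ - _), ← h, ← bd3_mul, ← bd3_sub, ← bd3_sub, ← bd3_add]
  refine bd3_mem fun τ m _ => ?_
  have h2 : ∀ f : Py O, 2 * II f = II (2 * f) := fun f => by
    rw [← map_ofNat (C : O →+* Py O) 2, II_C_mul]
  rw [csI, csI, w12I, h2, ← map_sub, ← map_sub, ← map_add, Pi.add_apply, cs_add]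
  refine II_mem ?_
  have h3 : ∀ x y z w : Py O, x + y - z + w - x - y + z = w := fun x y z w => by ring
  have h4 : ∀ a c : Fin 4, dM a (δ τ c) - dM c (δ τ a) + (A τ a * δ τ c - δ τ c * A τ a) +
      (δ τ a * A τ c - A τ c * δ τ a) ∈ MC b := fun a c =>
    add_mem (add_mem (sub_mem (MC_dM _ (hb _ _)) (MC_dM _ (hb _ _)))
      (sub_mem (MI_mul_left _ (hb _ _)) (MI_mul_right (hb _ _) _)))
      (sub_mem (MI_mul_right (hb _ _) _) (MI_mul_left _ (hb _ _)))
  erw [h3]
  exact add_mem (w12_mem (hb τ) (h4 _ _) (h4 _ _) (h4 _ _)) (Ideal.mul_mem_left _ _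
    (MI_trace (MC_mul (hb _ _) (sub_mem (MI_mul_left _ (hb _ _)) (MI_mul_left _ (hb _ _))))))

theorem bd3_gauC (hY : ∀ p ∈ Y, ∀ k, Odd (p k)) (hK : ∀ τ m, OnBd3 Y τ m → τ ∈ K) {A : Conn O}
    (hA : Is1 K A) {a : Ideal O} (ha : IsNilpotent a) {g : Pt → (Mt O)ˣ} (hg : IsGauge K a g) :
    bd3 Y (csI (gauC g A)) = bd3 Y (csI A) := by
  let ι : O →+* Polynomial O := Polynomial.C
  let s : Mt (Polynomial O) := CM (Matrix.scalar (Fin 2) Polynomial.X)
  have hu : ∀ p, IsUnit (1 + s * mapM ι ((g p).1 - 1)) := fun p =>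
    (((Nl.of ha (hg.mem p)).mapM ι).mul_left s).isNilpotent.isUnit_one_add
  choose G hG using hu
  have hc : Cmp K ∅ fun p => (G p).1 := by
    simp only [hG]
    have h1 : Cmp K ∅ fun _ => (1 : Mt O) := by simpa only [map_one] using cmp_CM (K := K) (1 : M2 O)
    have h2 : Cmp K ∅ fun _ => (1 : Mt (Polynomial O)) := by
      simpa only [map_one] using cmp_CM (K := K) (1 : M2 (Polynomial O))
    exact h2.add (((cmp_CM _).mul ((hg.cmp.sub h1).mapM ι)).of_eq (by simp))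
  let D : Polynomial O →+ Polynomial O := Polynomial.derivative.toAddMonoidHom
  have hD : ∀ x y, D (x * y) = D x * y + x * D y := fun x y => Polynomial.derivative_mul
  have hB := (hA.mapC ι).gauC hc
  have h0 : ∀ x : Mt O, cmM D (mapM ι x) = 0 := fun x => Matrix.ext fun i j => by
    ext m : 1
    change coeff m (cm D (map ι (x i j))) = 0
    rw [coeff_cm, coeff_map]
    exact Polynomial.derivative_C
  have h1 := der_cs hY hK hB hD
  have h2 : cmC D (gauC G (mapC ι A)) =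
      fun p i => cov i (gauC G (mapC ι A) p i) (((G p)⁻¹).1 * cmM D (G p).1) :=
    funext fun p => funext fun i => cmM_gau hD i (G p) (h0 _)
  rw [h2, bd3_cov hY hK hB ((hc.inv.mul (hc.cmM D)).of_eq (by simp)), mul_zero] at h1
  have : IsAddTorsionFree O := .of_module_rat O
  have h3 := Polynomial.eq_C_of_derivative_eq_zero h1
  have key : ∀ (r : O) (g' : Pt → (Mt O)ˣ),
      (∀ p, (g' p).1 = 1 + CM (Matrix.scalar (Fin 2) r) * ((g p).1 - 1)) →
      bd3 Y (csI (gauC g' A)) = (bd3 Y (csI (gauC G (mapC ι A)))).coeff 0 := by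
    intro r g' hg'
    have e1 : (Polynomial.evalRingHom r).comp ι = RingHom.id O := by
      ext x; simp [ι]
    have e2 : ∀ x : Mt O, mapM (Polynomial.evalRingHom r) (mapM ι x) = x := fun x => by
      rw [mapM_mapM, e1]
      exact Matrix.ext fun i j => map_id _
    have e3 : mapC (Polynomial.evalRingHom r) (gauC G (mapC ι A)) = gauC g' A := by
      funext p i
      refine (mapM_gau _ i (g' := g' p) ?_ _).trans (by rw [mapC, e2]; rfl)
      rw [hG, hg', map_add, map_one, map_mul, e2, mapM_CM]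
      congr 3
      ext i j
      by_cases h : i = j <;> simp [h]
    rw [← e3, bd3_csI_mapC, h3]
    simp
  rw [key 1 g fun p => by simp, ← key 0 (fun _ => 1) fun p => by simp]
  congr 2
  funext p i
  exact gau_one i _

namespace Br

omit [Algebra ℚ O] in
theorem odd_cell {X : Finset Pt} : ∀ p ∈ X.image cell, ∀ k, Odd (p k) := by
  intro p hp k
  obtain ⟨q, -, rfl⟩ := Finset.mem_image.1 hp
  exact odd_two_mul_add_one _

theorem onBd3_iff (X : Finset Pt) (τ : Pt) (l : Fin 4) : OnBd3 (X.image cell) τ l ↔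
    ¬ ((∃ q ∈ X, τ = face (cell q) l true) ↔ ∃ q ∈ X, τ = face (cell q) l false) := by
  have h : ∀ c, fc τ l c ∈ X.image cell ↔ ∃ q ∈ X, τ = face (cell q) l (!c) := by
    intro c
    rw [Finset.mem_image]
    refine exists_congr fun q => and_congr_right fun _ => ?_
    rw [face_eq]
    exact ⟨fun h => by rw [h, fc_fc], fun h => by rw [h, fc_fc']⟩
  rw [OnBd3, h, h]
  exact not_congr iff_comm

theorem CS_map [Algebra ℚ O'] (χ : O →+* O') (X : Finset Pt) (A : F1 O) :
    CS X (map1 χ A) = χ (CS X A) := by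
  rw [CS_eq, CS_eq, map1_eq, bd3_csI_mapC]

variable {X : Finset Pt}

theorem CS_cl (hX : ∀ τ l, OnBd3 (X.image cell) τ l → τ ∈ K) (A : F1 O) :
    CS X A = bd3 (X.image cell) (csI (cl K A)) := by
  rw [CS_eq]
  exact bd3_congr fun τ m h => csI_congr fun i hi =>
    (cl_pos (hX τ m h) (h.odd odd_cell hi)).symm

theorem stokes4 (hK : Cx K) (hX : ∀ q ∈ X, cell q ∈ K) {A : F1 O} (hA : Good1 K A) :
    CS X A = ∑ q ∈ X, itg (pairD (curv A) (curv A) (cell q)) := by
  have h1 : ∀ p ∈ X.image cell, p ∈ K := fun p hp => by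
    obtain ⟨q, hq, rfl⟩ := Finset.mem_image.1 hp
    exact hX q hq
  rw [CS_cl (K := K), stokes (is1_cl hK hA) odd_cell h1, Finset.sum_image]
  · refine Finset.sum_congr rfl fun q hq => ?_
    have h2 : Fc (cl K A) (cell q) = curv A (cell q) := funext fun i => funext fun j =>
      Fc_cl (hX q hq) (odd_two_mul_add_one _) (odd_two_mul_add_one _)
    rw [itg_eq, h2, pairD_eq _ _ _ (fun i j => cv_symm i j _ _) fun i j => cv_symm i j _ _]
  · intro p _ q _ h
    funext j
    have h1 := congrFun h j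
    simp only [cell] at h1
    omega
  · intro τ l h
    obtain ⟨s, hs, -⟩ := h.exists
    have h2 := cx_iff.1 hK _ (h1 _ hs) l (odd_cell _ hs l) (!s)
    rwa [fc_fc] at h2

theorem cs_var (hK : Cx K) (hX : ∀ τ l, OnBd3 (X.image cell) τ l → τ ∈ K) {A δ : F1 O}
    (hA : Good1 K A) (hδ : Good1 K δ) {b : Ideal O} (h : In1 K b δ) :
    CS X (A + δ) - CS X A - Bd X (fun τ l => itg (∑ i, ∑ j, ∑ k,
      eps4 l i j k • Matrix.trace (δ τ i * curv A τ j k))) ∈ b ^ 2 := by
  have h1 := bd3_var odd_cell hX (is1_cl hK hA) (is1_cl hK hδ) (cl_mem h)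
  rw [CS_cl hX, CS_cl hX, cl_add, pow_two, Bd_eq]
  convert h1 using 2
  rw [← bd3_mul]
  refine bd3_congr fun τ m hm => ?_
  have e : ((-1 : Py O)) ^ (m : ℕ) = C ((-1 : O) ^ (m : ℕ)) := by simp
  have ho := fun i : Fin 3 => hm.odd odd_cell (Fin.succAbove_ne m i)
  have hτ := hX τ m hm
  rw [sum_eps_w12 (δ τ) (curv A τ) fun i j => cv_symm i j _ _, itg_eq, e, II_C_mul, ← mul_assoc, ← mul_pow,
    ← map_ofNat (C : O →+* Py O) 2, II_C_mul, w12I, w12, w12, cl_pos hτ (ho 0), cl_pos hτ (ho 1),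
    cl_pos hτ (ho 2), Fc_cl hτ (ho 0) (ho 1), Fc_cl hτ (ho 1) (ho 2), Fc_cl hτ (ho 2) (ho 0)]
  simp

theorem cs_gauge (hK : Cx K) (hX : ∀ τ l, OnBd3 (X.image cell) τ l → τ ∈ K) {a : Ideal O}
    (ha : IsNilpotent a) {A : F1 O} (hA : Good1 K A) {k : Pt → (MM O)ˣ}
    (hk : Good0 K fun p => (k p : MM O)) (hk' : ∀ p ∈ K, InI a ((k p : MM O) - 1)) :
    CS X (gauge A k) = CS X A := by
  classical
  have hg : IsGauge K a fun p => if p ∈ K then k p else 1 :=
    ⟨(cmp_of_good0 hk).congr (cx_iff.1 hK) fun p hp => by rw [if_pos hp], fun p => by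
      split_ifs with hp
      · exact hk' p hp
      · rw [Units.val_one, sub_self]; exact zero_mem _⟩
  rw [CS_cl hX A, ← bd3_gauC odd_cell hX (is1_cl hK hA) ha hg, CS_eq]
  refine bd3_congr fun τ m h => csI_congr fun i hi => ?_
  rw [gauge_eq, gauC, gauC, if_pos (hX τ m h), cl_pos (hX τ m h) (h.odd odd_cell hi)]

end Br

end Vale.Agent.P215Z.Fm
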