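import Vale.Agent.P215Z.Fm.Hol
import Vale.Agent.P215Z.Alg.TrLog

/-!
# P215, forms: flat cells, compatibility of derived forms, the logarithm
-/

set_option linter.unusedSectionVars false

noncomputable section

namespace Vale.Agent.P215Z.Fm

open MvPolynomial

variable {O O' : Type} [CommRing O] [CommRing O']

/-! ### compatible families -/

section Cmp

variable {K : Set Pt} {I J : Finset (Fin 4)} {v w : Pt → Mt O}

theorem cmp_iff : Cmp K I w ↔ ∀ a b, CmpS K I fun p => w p a b :=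
  ⟨fun h a b => ⟨fun p hp i hi h1 => congrFun (congrFun (h.zero p hp i hi h1) a) b,
    fun p hp k h1 => congrFun (congrFun (h.cst p hp k h1) a) b,
    fun p hp k hk h1 ε => congrFun (congrFun (h.face p hp k hk h1 ε) a) b⟩,
  fun h => ⟨fun p hp i hi h1 => Matrix.ext fun a b => (h a b).zero p hp i hi h1,
    fun p hp k h1 => Matrix.ext fun a b => (h a b).cst p hp k h1,
    fun p hp k hk h1 ε => Matrix.ext fun a b => (h a b).face p hp k hk h1 ε⟩⟩

theorem Cmp.mono {K' : Set Pt} (h : Cmp K I w) (hK : K' ⊆ K) : Cmp K' I w :=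
  ⟨fun p hp => h.zero p (hK hp), fun p hp => h.cst p (hK hp), fun p hp => h.face p (hK hp)⟩

theorem Cmp.congr (hK : Closed K) (h : Cmp K I w) (e : ∀ p ∈ K, v p = w p) : Cmp K I v :=
  ⟨fun p hp i hi h1 => (e p hp).trans (h.zero p hp i hi h1),
    fun p hp k h1 => by rw [e p hp, h.cst p hp k h1],
    fun p hp k hk h1 ε => by rw [e p hp, e _ (hK p hp k h1 ε), h.face p hp k hk h1 ε]⟩

theorem cmp_zero : Cmp K I fun _ => (0 : Mt O) :=
  ⟨fun _ _ _ _ _ => rfl, fun _ _ _ _ => map_zero _, fun _ _ _ _ _ _ => map_zero _⟩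

theorem cmp_CM (x : M2 O) : Cmp K ∅ fun _ => CM x :=
  ⟨fun _ _ _ hi => absurd hi (by simp), fun _ _ _ _ => dM_CM _ _, fun _ _ _ _ _ _ => evM_CM _ _ _⟩

theorem Cmp.add (h : Cmp K I v) (h' : Cmp K I w) : Cmp K I fun p => v p + w p :=
  ⟨fun p hp i hi h1 => by rw [h.zero p hp i hi h1, h'.zero p hp i hi h1, add_zero],
    fun p hp k h1 => by rw [map_add, h.cst p hp k h1, h'.cst p hp k h1, add_zero],
    fun p hp k hk h1 ε => by rw [map_add, h.face p hp k hk h1, h'.face p hp k hk h1]⟩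

theorem Cmp.neg (h : Cmp K I v) : Cmp K I fun p => -v p :=
  ⟨fun p hp i hi h1 => by rw [h.zero p hp i hi h1, neg_zero],
    fun p hp k h1 => by rw [map_neg, h.cst p hp k h1, neg_zero],
    fun p hp k hk h1 ε => by rw [map_neg, h.face p hp k hk h1]⟩

theorem Cmp.sub (h : Cmp K I v) (h' : Cmp K I w) : Cmp K I fun p => v p - w p := by
  simpa only [sub_eq_add_neg] using h.add h'.neg

theorem Cmp.sum {ι : Type} (s : Finset ι) {u : ι → Pt → Mt O} (h : ∀ x ∈ s, Cmp K I (u x)) :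
    Cmp K I fun p => ∑ x ∈ s, u x p :=
  ⟨fun p hp i hi h1 => Finset.sum_eq_zero fun x hx => (h x hx).zero p hp i hi h1,
    fun p hp k h1 => by
      rw [map_sum]; exact Finset.sum_eq_zero fun x hx => (h x hx).cst p hp k h1,
    fun p hp k hk h1 ε => by
      rw [map_sum]; exact Finset.sum_congr rfl fun x hx => (h x hx).face p hp k hk h1 ε⟩

theorem Cmp.mul (h : Cmp K I v) (h' : Cmp K J w) : Cmp K (I ∪ J) fun p => v p * w p :=
  ⟨fun p hp i hi h1 => by
      rcases Finset.mem_union.1 hi with hi | hi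
      · rw [h.zero p hp i hi h1, zero_mul]
      · rw [h'.zero p hp i hi h1, mul_zero],
    fun p hp k h1 => by
      rw [dM_mul, h.cst p hp k h1, h'.cst p hp k h1, zero_mul, mul_zero, add_zero],
    fun p hp k hk h1 ε => by
      rw [Finset.notMem_union] at hk
      rw [map_mul, h.face p hp k hk.1 h1, h'.face p hp k hk.2 h1]⟩

theorem Cmp.dM (h : Cmp K I v) (j : Fin 4) : Cmp K (insert j I) fun p => dM j (v p) :=
  ⟨fun p hp i hi h1 => by
      rcases Finset.mem_insert.1 hi with rfl | hi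
      · exact h.cst p hp i h1
      · rw [h.zero p hp i hi h1, map_zero],
    fun p hp k h1 => by rw [dM_comm, h.cst p hp k h1, map_zero],
    fun p hp k hk h1 ε => by
      rw [Finset.mem_insert, not_or] at hk
      rw [← dM_evM_ne (Ne.symm hk.1), h.face p hp k hk.2 h1]⟩

theorem Cmp.of_eq (h : Cmp K I v) (e : I = J) : Cmp K J v := e ▸ h

theorem Cmp.smul {f : Pt → Py O} (h : CmpS K I f) (h' : Cmp K J w) :
    Cmp K (I ∪ J) fun p => f p • w p :=
  ⟨fun p hp i hi h1 => by
      rcases Finset.mem_union.1 hi with hi | hi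
      · rw [h.zero p hp i hi h1, zero_smul]
      · rw [h'.zero p hp i hi h1, smul_zero],
    fun p hp k h1 => by
      rw [dM_smul, h.cst p hp k h1, h'.cst p hp k h1, zero_smul, smul_zero, add_zero],
    fun p hp k hk h1 ε => by
      rw [Finset.notMem_union] at hk
      rw [evM_smul, h.face p hp k hk.1 h1, h'.face p hp k hk.2 h1]⟩

theorem Cmp.cmM (h : Cmp K I v) (f : O →+ O') : Cmp K I fun p => cmM f (v p) :=
  ⟨fun p hp i hi h1 => by rw [h.zero p hp i hi h1, map_zero],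
    fun p hp k h1 => by rw [← cmM_dM, h.cst p hp k h1, map_zero],
    fun p hp k hk h1 ε => by rw [← cmM_evM, h.face p hp k hk h1]⟩

theorem Cmp.mapM (h : Cmp K I v) (χ : O →+* O') : Cmp K I fun p => mapM χ (v p) := by
  simpa only [mapM_eq_cmM] using h.cmM χ.toAddMonoidHom

theorem Cmp.trace (h : Cmp K I v) : CmpS K I fun p => (v p).trace :=
  ⟨fun p hp i hi h1 => by rw [h.zero p hp i hi h1, Matrix.trace_zero],
    fun p hp k h1 => by rw [← trace_dM, h.cst p hp k h1, Matrix.trace_zero],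
    fun p hp k hk h1 ε => by rw [← trace_evM, h.face p hp k hk h1]⟩

theorem Cmp.inv {g : Pt → (Mt O)ˣ} (h : Cmp K ∅ fun p => (g p).1) :
    Cmp K ∅ fun p => ((g p)⁻¹).1 :=
  ⟨fun _ _ _ hi => absurd hi (by simp),
    fun p hp k h1 => by rw [dM_inv, h.cst p hp k h1, mul_zero, zero_mul, neg_zero],
    fun p hp k hk h1 ε => map_inv_unit _ (h.face p hp k hk h1 ε)⟩

theorem Cmp.sym (h : Cmp K I v) (σ : Equiv.Perm (Fin 4)) (c : Pt) :
    Cmp (sym σ c ⁻¹' K) (I.image σ.symm) fun p => rnM σ.symm (v (sym σ c p)) :=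
  ⟨fun p hp i hi h1 => by
      obtain ⟨j, hj, rfl⟩ := Finset.mem_image.1 hi
      rw [← odd_sym σ c, Equiv.apply_symm_apply] at h1
      rw [h.zero _ hp j hj h1, map_zero],
    fun p hp k h1 => by
      have h2 := rnM_dM σ.symm (σ k) (v (Fm.sym σ c p))
      rw [Equiv.symm_apply_apply] at h2
      rw [← h2, h.cst _ hp (σ k) (by rwa [odd_sym]), map_zero],
    fun p hp k hk h1 ε => by
      have h2 := rnM_evM σ.symm (σ k) ε (v (Fm.sym σ c p))
      rw [Equiv.symm_apply_apply] at h2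
      rw [← h2, h.face _ hp (σ k) (fun h3 => hk (Finset.mem_image.2
        ⟨σ k, h3, σ.symm_apply_apply k⟩)) (by rwa [odd_sym]), sym_fc]⟩

variable {A B : Conn O}

theorem Is1.add (h : Is1 K A) (h' : Is1 K B) : Is1 K (A + B) := fun i => (h i).add (h' i)

theorem Is1.sub (h : Is1 K A) (h' : Is1 K B) : Is1 K (A - B) := fun i => (h i).sub (h' i)

theorem Is1.neg (h : Is1 K A) : Is1 K (-A) := fun i => (h i).neg

theorem Is1.mono {K' : Set Pt} (h : Is1 K A) (hK : K' ⊆ K) : Is1 K' A := fun i => (h i).mono hK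

theorem Is1.mapC (h : Is1 K A) (χ : O →+* O') : Is1 K (mapC χ A) := fun i => (h i).mapM χ

theorem Is1.cmC (h : Is1 K A) (f : O →+ O') : Is1 K (cmC f A) := fun i => (h i).cmM f

theorem Is1.gauC (h : Is1 K A) {g : Pt → (Mt O)ˣ} (hg : Cmp K ∅ fun p => (g p).1) :
    Is1 K (gauC g A) := fun i =>
  (((hg.inv.mul (h i)).mul hg).of_eq (by simp)).add ((hg.inv.mul (hg.dM i)).of_eq (by simp))

theorem Is1.symC (h : Is1 K A) (σ : Equiv.Perm (Fin 4)) (c : Pt) :
    Is1 (sym σ c ⁻¹' K) (symC σ c A) := fun i => ((h (σ i)).sym σ c).of_eq (by simp)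

theorem Is1.d1 (h : Is1 K A) : Is2 K (d1 A) :=
  ⟨fun i j => ((h j).dM i).sub (((h i).dM j).of_eq (Finset.pair_comm _ _)),
    fun p i j => by simp only [Fm.d1, neg_sub], fun p i => sub_self _⟩

theorem Is1.br (h : Is1 K A) (h' : Is1 K B) (i j : Fin 4) :
    Cmp K {i, j} fun p => A p i * B p j - B p j * A p i :=
  (((h i).mul (h' j)).of_eq (by simp)).sub
    (((h' j).mul (h i)).of_eq (by rw [Finset.pair_comm]; simp))

theorem Is1.Fc (h : Is1 K A) : Is2 K (Fc A) :=
  ⟨fun i j => (h.d1.cmp i j).add (h.br h i j), fun p i j => cv_symm i j _ _,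
    fun p i => by simp [Fm.Fc, cv]⟩

theorem IsConn.mapC {a : Ideal O} (h : IsConn K a A) (χ : O →+* O') :
    IsConn K (a.map χ) (mapC χ A) := ⟨h.cmp.mapC χ, fun p i => MC_mapM χ (h.mem p i)⟩

theorem IsConn.gauC {a : Ideal O} (h : IsConn K a A) {g : Pt → (Mt O)ˣ} (hg : IsGauge K a g) :
    IsConn K a (gauC g A) :=
  ⟨h.cmp.gauC hg.cmp, fun p i => add_mem (MI_conj (h.mem p i) _ _) (MI_mul_left _ (by
    have h1 := MC_dM i (hg.mem p)
    rwa [map_sub, dM_one, sub_zero] at h1))⟩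

theorem IsConn.symC {a : Ideal O} (h : IsConn K a A) (σ : Equiv.Perm (Fin 4)) (c : Pt) :
    IsConn (sym σ c ⁻¹' K) a (symC σ c A) :=
  ⟨h.cmp.symC σ c, fun _ _ => MC_rnM _ (h.mem _ _)⟩

theorem IsConn.mono {K' : Set Pt} {a : Ideal O} (h : IsConn K a A) (hK : K' ⊆ K) :
    IsConn K' a A := ⟨h.cmp.mono hK, h.mem⟩

theorem Fc_mapC (χ : O →+* O') (A : Conn O) (p : Pt) (k l : Fin 4) :
    Fc (mapC χ A) p k l = mapM χ (Fc A p k l) := (mapM_cv χ k l _ _).symm

theorem Fc_symC (σ : Equiv.Perm (Fin 4)) (c : Pt) (A : Conn O) (p : Pt) (k l : Fin 4) :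
    Fc (symC σ c A) p k l = rnM σ.symm (Fc A (sym σ c p) (σ k) (σ l)) := by
  simp only [Fc, cv, symC, map_add, map_sub, map_mul, rnM_dM, Equiv.symm_apply_apply]

theorem cv_gau (k l : Fin 4) (g : (Mt O)ˣ) (x y : Mt O) :
    cv k l (gau k g x) (gau l g y) = (g⁻¹).1 * cv k l x y * g.1 := by
  simp only [cv, gau, map_add, dM_mul, dM_inv, dM_comm l k, mul_add, add_mul, mul_sub, sub_mul,
    mul_assoc, neg_mul, Units.mul_inv_cancel_left]
  abel

theorem Fc_gauC (g : Pt → (Mt O)ˣ) (A : Conn O) (p : Pt) (k l : Fin 4) :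
    Fc (gauC g A) p k l = ((g p)⁻¹).1 * Fc A p k l * (g p).1 := cv_gau k l _ _ _

theorem Fc_add (A η : Conn O) (p : Pt) (k l : Fin 4) : Fc (A + η) p k l = Fc A p k l +
    d1 η p k l + (A p k * η p l - η p l * A p k) + (η p k * A p l - A p l * η p k) +
      (η p k * η p l - η p l * η p k) := by
  simp only [Fc, cv, d1, Pi.add_apply, map_add]
  noncomm_ring

theorem Fc_congr {b : Ideal O} {p : Pt} (h : ∀ i, B p i - A p i ∈ MC b) (k l : Fin 4) :
    Fc B p k l - Fc A p k l ∈ MC b := by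
  rw [MC_sub_iff, ← Fc_mapC, ← Fc_mapC]
  simp only [Fc, mapC, MC_sub_iff.1 (h k), MC_sub_iff.1 (h l)]

theorem Fc_mem {b : Ideal O} {p : Pt} (h : ∀ i, A p i ∈ MC b) (k l : Fin 4) :
    Fc A p k l ∈ MC b :=
  add_mem (sub_mem (MC_dM _ (h l)) (MC_dM _ (h k)))
    (sub_mem (MI_mul_left _ (h l)) (MI_mul_left _ (h k)))

/-- the Bianchi identity -/
theorem bianchi (A : Conn O) (p : Pt) (i j k : Fin 4) :
    cov i (A p i) (Fc A p j k) + cov j (A p j) (Fc A p k i) + cov k (A p k) (Fc A p i j) = 0 := by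
  simp only [cov, Fc, cv, map_add, map_sub, dM_mul, dM_comm j i, dM_comm k i, dM_comm k j]
  noncomm_ring

/-- transported matrices are covariantly constant -/
theorem cov_conj {k : Fin 4} {T : (Mt O)ˣ} {x y : Mt O} (h : dM k T.1 = T.1 * x) :
    cov k x ((T⁻¹).1 * y * T.1) = (T⁻¹).1 * dM k y * T.1 := by
  rw [cov, dM_mul, dM_mul, dM_inv_of h, h]
  noncomm_ring

end Cmp

variable [Algebra ℚ O] [Algebra ℚ O']

/-! ### flat cells -/

theorem ext_flat {j k : Fin 4} (hjk : j ≠ k) {ε : Bool} {x y T : Mt O} (hx : Nl x)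
    (h : cv k j x y = 0) (h1 : dM k T = T * x)
    (h2 : dM j (evM k ε T) = evM k ε T * evM k ε y) : dM j T = T * y := by
  refine sub_eq_zero.1 (ode_unique (k := k) (ε := ε) hx Nl.zero ?_ ?_)
  · have h3 : dM k y = dM j x - (x * y - y * x) := by
      rw [cv, ← eq_neg_iff_add_eq_zero, sub_eq_iff_eq_add] at h
      rw [h]; abel
    rw [map_sub, dM_comm, h1, dM_mul, dM_mul, h1, h3]
    noncomm_ring
  · rw [map_sub, map_mul, ← dM_evM_ne hjk, h2, sub_self]

theorem at0_step {k : Fin 4} {x : Mt O} (h : Nl x) : at0 (step k false x).1 = 1 := by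
  rw [← at0_evM k, evM_step h, map_one]

theorem at0_canL (ks : List (Fin 4)) {B : Fin 4 → Mt O} (h : ∀ i, Nl (B i)) :
    at0 (canL ks B).1 = 1 := by
  induction ks generalizing B with
  | nil => exact map_one _
  | cons k ks ih =>
    rw [canL, Units.val_mul, map_mul, ih fun i => (h i).evM k false, at0_step (h k), mul_one]

theorem dM_canL_notMem {ks : List (Fin 4)} {B : Fin 4 → Mt O} (h : ∀ i, Nl (B i)) {j : Fin 4}
    (hj : j ∉ ks) (h0 : ∀ i, dM j (B i) = 0) : dM j (canL ks B).1 = 0 := by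
  induction ks generalizing B with
  | nil => exact dM_one j
  | cons k ks ih =>
    rw [List.mem_cons, not_or] at hj
    rw [canL, Units.val_mul, dM_mul, ih (fun i => (h i).evM k false) hj.2
      (fun i => by rw [dM_evM_ne hj.1, h0, map_zero]), dM_step_ne (h k) hj.1 (h0 k), zero_mul,
      mul_zero, add_zero]

theorem dM_canL {ks : List (Fin 4)} (hks : ks.Nodup) {B : Fin 4 → Mt O} (h : ∀ i, Nl (B i))
    (hF : ∀ i ∈ ks, ∀ j ∈ ks, cv i j (B i) (B j) = 0) :
    ∀ j ∈ ks, dM j (canL ks B).1 = (canL ks B).1 * B j := by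
  induction ks generalizing B with
  | nil => simp
  | cons k ks ih =>
    rw [List.nodup_cons] at hks
    have h1 : dM k (canL ks fun i => evM k false (B i)).1 = 0 :=
      dM_canL_notMem (fun i => (h i).evM k false) hks.1 fun i => dM_evM_self _ _ _
    have h2 : dM k (canL (k :: ks) B).1 = (canL (k :: ks) B).1 * B k := by
      rw [canL, Units.val_mul, dM_mul, h1, zero_mul, zero_add, dM_step (h k), mul_assoc]
    intro j hj
    rcases List.mem_cons.1 hj with rfl | hj'
    · exact h2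
    · have hne : ∀ i ∈ ks, i ≠ k := fun i hi e => hks.1 (e ▸ hi)
      refine ext_flat (ε := false) (hne j hj') (h k) (hF k (by simp) j hj) h2 ?_
      rw [canL, Units.val_mul, map_mul, evM_step (h k), mul_one, evM_of_dM h1]
      refine ih hks.2 (fun i => (h i).evM k false) (fun i hi i' hi' => ?_) j hj'
      have h3 := congrArg (evM k false) (hF i (by simp [hi]) i' (by simp [hi']))
      simp only [cv, map_add, map_sub, map_mul, map_zero, ← dM_evM_ne (hne i hi),
        ← dM_evM_ne (hne i' hi')] at h3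
      exact h3

theorem mapM_canL (ks : List (Fin 4)) {B : Fin 4 → Mt O} (h : ∀ i, Nl (B i)) (χ : O →+* O') :
    mapM χ (canL ks B).1 = (canL ks fun i => mapM χ (B i)).1 := by
  induction ks generalizing B with
  | nil => exact map_one _
  | cons k ks ih =>
    rw [canL, canL, Units.val_mul, Units.val_mul, map_mul, ih fun i => (h i).evM k false,
      mapM_step (h k)]
    simp only [mapM_evM]

variable {B : Fin 4 → Mt O}

theorem at0_can (h : ∀ i, Nl (B i)) : at0 (can B).1 = 1 := at0_canL _ h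

theorem mapM_can (h : ∀ i, Nl (B i)) (χ : O →+* O') :
    mapM χ (can B).1 = (can fun i => mapM χ (B i)).1 := mapM_canL _ h χ

theorem dM_can (h : ∀ i, Nl (B i)) (hF : ∀ i j, cv i j (B i) (B j) = 0) (j : Fin 4) :
    dM j (can B).1 = (can B).1 * B j :=
  dM_canL (by decide) h (fun i _ j _ => hF i j) j (by fin_cases j <;> simp)

/-- the general solution on a flat cell -/
theorem eq_mul_can (h : ∀ i, Nl (B i)) (hF : ∀ i j, cv i j (B i) (B j) = 0) {T : Mt O}
    (hT : ∀ j, dM j T = T * B j) : T = CM (at0 T) * (can B).1 := by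
  have h1 : T * ((can B)⁻¹).1 = CM (at0 (T * ((can B)⁻¹).1)) := by
    refine eq_CM_of_dM fun j => ?_
    rw [dM_mul, hT, dM_inv_of (dM_can h hF j)]
    noncomm_ring
  have h2 : at0 ((can B)⁻¹).1 = 1 := map_inv_unit at0 (T := can B) (S := 1) (at0_can h)
  rw [map_mul, h2, mul_one] at h1
  rw [← h1, mul_assoc, Units.inv_mul, mul_one]

theorem can_zero : can (fun _ => (0 : Mt O)) = 1 := by
  have h := eq_mul_can (B := fun _ => (0 : Mt O)) (fun _ => Nl.zero) (fun i j => by simp [cv])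
    (T := 1) fun j => by rw [dM_one, mul_zero]
  rw [map_one, map_one, one_mul] at h
  exact Units.ext h.symm

theorem can_congr {B' : Fin 4 → Mt O} (h : ∀ i, Nl (B i)) (h' : ∀ i, Nl (B' i)) {b : Ideal O}
    (hb : ∀ i, B' i - B i ∈ MC b) : (can B').1 - (can B).1 ∈ MC b := by
  rw [MC_sub_iff, mapM_can h, mapM_can h']
  simp only [fun i => MC_sub_iff.1 (hb i)]

theorem can_sub_one (h : ∀ i, Nl (B i)) {b : Ideal O} (hb : ∀ i, B i ∈ MC b) :
    (can B).1 - 1 ∈ MC b := by
  have h1 := can_congr (B := fun _ => 0) (fun _ => Nl.zero) h (b := b) (by simpa using hb)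
  rwa [can_zero] at h1

/-- the constant matrix with the value at `t = 0`, as a unit -/
def c0 (u : (Mt O)ˣ) : (Mt O)ˣ := Units.map (CM.comp at0 : Mt O →+* Mt O).toMonoidHom u

theorem c0_val (u : (Mt O)ˣ) : (c0 u).1 = CM (at0 u.1) := rfl

theorem c0_inv_val (u : (Mt O)ˣ) : ((c0 u)⁻¹).1 = CM (at0 (u⁻¹).1) := rfl

theorem c0_one : c0 (1 : (Mt O)ˣ) = 1 := map_one _

theorem c0_mul (u v : (Mt O)ˣ) : c0 (u * v) = c0 u * c0 v := map_mul _ _ _

theorem c0_inv (u : (Mt O)ˣ) : c0 u⁻¹ = (c0 u)⁻¹ := map_inv _ _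

section Tele

variable {K : Set Pt} {A : Conn O}

theorem can_tr (hK : Closed K) (hA : Is1 K A) (hN : ∀ p i, Nl (A p i)) {p q : Pt} (hp : p ∈ K)
    (hq : q ∈ K) (h : Adj p q) (h1 : ∀ k l, Fc A p k l = 0) (h2 : ∀ k l, Fc A q k l = 0) :
    can (A p) * tr A p q = c0 (tr A p q) * can (A q) := by
  have key : ∀ p ∈ K, ∀ k s, Odd (p k) → (∀ k l, Fc A p k l = 0) →
      (∀ i j, Fc A (fc p k s) i j = 0) →
      can (A (fc p k s)) * step k s (A p k) = c0 (step k s (A p k)) * can (A p) := by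
    intro p hp k s ho f1 f2
    have e1 : A (fc p k s) k = 0 :=
      (hA k).zero _ (hK p hp k ho s) k (by simp) (by rw [odd_fc]; exact not_not.2 ho)
    have e2 : dM k (can (A (fc p k s))).1 = 0 := by rw [dM_can (hN _) f2, e1, mul_zero]
    have e3 : dM k (can (A (fc p k s)) * step k s (A p k)).1 =
        (can (A (fc p k s)) * step k s (A p k)).1 * A p k := by
      rw [Units.val_mul, dM_mul, e2, zero_mul, zero_add, dM_step (hN _ _), mul_assoc]
    have e4 := eq_mul_can (hN p) f1 (T := (can (A (fc p k s)) * step k s (A p k)).1) fun j => by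
      by_cases hj : j = k
      · rw [hj]; exact e3
      · refine ext_flat (ε := s) hj (hN p k) (f1 k j) e3 ?_
        rw [Units.val_mul, map_mul, evM_step (hN _ _), mul_one, evM_of_dM e2,
          (hA j).face p hp k (by simpa using Ne.symm hj) ho, dM_can (hN _) f2]
    refine Units.ext (e4.trans ?_)
    rw [Units.val_mul, map_mul, at0_can (hN _), one_mul]
    rfl
  rcases tr_cases p q with h' | ⟨k, s, h', rfl⟩ | ⟨k, s, h', rfl⟩
  · rcases h with rfl | h
    · rw [tr_self, c0_one, mul_one, one_mul]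
    · exact absurd h h'
  · rw [tr_down _ h', c0_inv, eq_inv_mul_iff_mul_eq, ← mul_assoc, ← key p hp k s h' h1 h2,
      mul_inv_cancel_right]
  · rw [tr_up _ h', key q hq k s h' h2 h1]

/-- along flat cells the holonomy is the holonomy at `t = 0`, up to the two ends -/
theorem can_hol (hK : Closed K) (hA : Is1 K A) (hN : ∀ p i, Nl (A p i)) {p : Pt} {l : List Pt}
    (h : IsPath K p l) (h1 : ∀ k m, Fc A p k m = 0) (h2 : ∀ q ∈ l, ∀ k m, Fc A q k m = 0) :
    can (A p) * hol A p l = c0 (hol A p l) * can (A (l.getLastD p)) := by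
  induction l generalizing p with
  | nil => rw [hol_nil, c0_one, mul_one, one_mul, List.getLastD_nil]
  | cons q l ih =>
    rw [hol_cons, ← mul_assoc, can_tr hK hA hN h.1 h.2.2.head h.2.1 h1 (h2 q (by simp)),
      mul_assoc, ih h.2.2 (h2 q (by simp)) fun r hr => h2 r (by simp [hr]), c0_mul,
      List.getLastD_cons, mul_assoc]

/-- the same modulo an ideal -/
theorem can_hol_mod (hK : Closed K) (hA : Is1 K A) (hN : ∀ p i, Nl (A p i)) {p : Pt}
    {l : List Pt} (h : IsPath K p l) {b : Ideal O} (h1 : ∀ k m, Fc A p k m ∈ MC b)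
    (h2 : ∀ q ∈ l, ∀ k m, Fc A q k m ∈ MC b) :
    (can (A p) * hol A p l).1 - (c0 (hol A p l) * can (A (l.getLastD p))).1 ∈ MC b := by
  have h3 := can_hol hK (hA.mapC (Ideal.Quotient.mk b)) (nl_mapC hN _) h
    (fun k m => by rw [Fc_mapC]; exact MC_iff_map.1 (h1 k m))
    (fun q hq k m => by rw [Fc_mapC]; exact MC_iff_map.1 (h2 q hq k m))
  rw [MC_sub_iff, Units.val_mul, Units.val_mul, map_mul, map_mul, mapM_can (hN _),
    mapM_can (hN _), mapM_hol hN, c0_val, mapM_CM, ← at0_mapM, mapM_hol hN]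
  exact congrArg Units.val h3

/-- cells of dimension at most one are flat -/
theorem Fc_eq_zero_of_edge (hA : Is1 K A) {p : Pt} (hp : p ∈ K)
    (h : ∀ k l, Odd (p k) → Odd (p l) → k = l) (k l : Fin 4) : Fc A p k l = 0 := by
  by_cases hkl : k = l
  · rw [hkl]; exact hA.Fc.diag p l
  · by_cases hk : Odd (p k)
    · exact (hA.Fc.cmp k l).zero p hp l (by simp) fun hl => hkl (h k l hk hl)
    · exact (hA.Fc.cmp k l).zero p hp k (by simp) hk

theorem can_vertex (hA : Is1 K A) {p : Pt} (hp : p ∈ K) (h : ∀ k, ¬ Odd (p k)) :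
    can (A p) = 1 := by
  have h1 : A p = fun _ => 0 := funext fun i => (hA i).zero p hp i (by simp) (h i)
  rw [h1, can_zero]

end Tele

/-! ### the logarithm -/

section Lg

variable {R S : Type} [Ring R] [Algebra ℚ R] [Ring S] [Algebra ℚ S]

theorem lg_eq {u : R} {N : ℕ} (h : (u - 1) ^ N = 0) : lg u = TrLog.lg N (u - 1) := by
  have h1 : nilpotencyClass (u - 1) ≤ N + 1 :=
    (Nat.sInf_le (show N ∈ {k | (u - 1) ^ k = 0} from h)).trans (Nat.le_succ N)
  have h2 : (u - 1) ^ nilpotencyClass (u - 1) = 0 := pow_nilpotencyClass ⟨N, h⟩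
  have h3 : lg u = ∑ n ∈ Finset.range (N + 1), ((-1 : ℚ) ^ (n + 1) / n) • (u - 1) ^ n := by
    refine Finset.sum_subset (Finset.range_subset_range.2 h1) fun n _ hn => ?_
    rw [Finset.mem_range, not_lt] at hn
    rw [pow_eq_zero_of_le hn h2, smul_zero]
  rw [h3, Finset.sum_range_succ', TrLog.lg]
  simp only [Nat.cast_zero, div_zero, zero_smul, add_zero, Nat.cast_succ, pow_succ (-1 : ℚ),
    mul_neg, mul_one, neg_neg]

theorem map_lg (f : R →+* S) {u : R} (h : IsNilpotent (u - 1)) : f (lg u) = lg (f u) := by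
  obtain ⟨N, hN⟩ := h
  have h1 : (f u - 1) ^ N = 0 := by rw [← map_one f, ← map_sub, ← map_pow, hN, map_zero]
  rw [lg_eq hN, lg_eq h1, ← map_one f, ← map_sub]
  exact TrLog.map_lg f.toRatAlgHom N _

theorem lg_one : lg (1 : R) = 0 := by
  rw [lg_eq (N := 1) (by simp), sub_self, TrLog.lg_zero]

theorem lg_conj (g : Rˣ) {u : R} (h : IsNilpotent (u - 1)) :
    lg (g.1 * u * (g⁻¹).1) = g.1 * lg u * (g⁻¹).1 := by
  obtain ⟨N, hN⟩ := h
  have h1 : g.1 * u * (g⁻¹).1 - 1 = g.1 * (u - 1) * (g⁻¹).1 := by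
    rw [mul_sub, sub_mul, mul_one, Units.mul_inv]
  have h2 : (g.1 * u * (g⁻¹).1 - 1) ^ N = 0 := by
    rw [h1, Units.conj_pow, hN, mul_zero, zero_mul]
  rw [lg_eq hN, lg_eq h2, h1, TrLog.lg_conj g.inv_mul g.mul_inv]

end Lg

theorem lg_mem {R : Type} [CommRing R] [Algebra ℚ R] {J : Ideal R} {u : M2 R}
    (h : u - 1 ∈ MI J) : lg u ∈ MI J := by
  refine sum_mem fun n _ => ?_
  rcases n with _ | n
  · simp
  · rw [← algebraMap_smul R]
    exact Submodule.smul_mem _ _ (by rw [pow_succ]; exact MI_mul_left _ h)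

theorem lg_first {R : Type} [CommRing R] [Algebra ℚ R] {J : Ideal R} {u : M2 R}
    (hn : IsNilpotent (u - 1)) (h : u - 1 ∈ MI J) : lg u - (u - 1) ∈ MI (J * J) := by
  obtain ⟨N, hN⟩ := hn
  rw [lg_eq (N := N + 1) (by rw [pow_succ, hN, zero_mul]), TrLog.lg, Finset.sum_range_succ']
  simp only [pow_zero, Nat.cast_zero, zero_add, div_one, one_smul, pow_one, add_sub_cancel_right]
  refine sum_mem fun n _ => ?_
  rw [← algebraMap_smul R]
  exact Submodule.smul_mem _ _ (by
    rw [pow_succ, pow_succ, mul_assoc]; exact MI_mul_left _ (MI_mul h h))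

end Vale.Agent.P215Z.Fm
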