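import Vale.Agent.P215Z.Fm.Step
import Vale.Agent.P215Z.Lat

/-!
# P215, forms: definitions on the cubical lattice
-/

noncomputable section

namespace Vale.Agent.P215Z.Fm

open MvPolynomial

/-- the neighbour of `p` in the direction `k`; for odd `p k` it is the face `t k = ε` -/
def fc (p : Pt) (k : Fin 4) (ε : Bool) : Pt := if ε then p + ee k else p - ee k

/-- sets of cells which are closed under faces -/
def Closed (K : Set Pt) : Prop := ∀ p ∈ K, ∀ k, Odd (p k) → ∀ ε, fc p k ε ∈ K

/-- equal or neighbouring cells -/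
def Adj (p q : Pt) : Prop := q = p ∨ ∃ k ε, q = fc p k ε

variable {O O' : Type} [CommRing O] [CommRing O']

/-- the component, in the directions `I`, of a form on `K` (scalar values) -/
structure CmpS (K : Set Pt) (I : Finset (Fin 4)) (w : Pt → Py O) : Prop where
  zero : ∀ p ∈ K, ∀ i ∈ I, ¬ Odd (p i) → w p = 0
  cst : ∀ p ∈ K, ∀ k, ¬ Odd (p k) → pderiv k (w p) = 0
  face : ∀ p ∈ K, ∀ k ∉ I, Odd (p k) → ∀ ε, ev k ε (w p) = w (fc p k ε)

/-- the component, in the directions `I`, of a form on `K` (matrix values) -/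
structure Cmp (K : Set Pt) (I : Finset (Fin 4)) (w : Pt → Mt O) : Prop where
  zero : ∀ p ∈ K, ∀ i ∈ I, ¬ Odd (p i) → w p = 0
  cst : ∀ p ∈ K, ∀ k, ¬ Odd (p k) → dM k (w p) = 0
  face : ∀ p ∈ K, ∀ k ∉ I, Odd (p k) → ∀ ε, evM k ε (w p) = w (fc p k ε)

/-- matrix valued one-forms -/
abbrev Conn (O : Type) [CommRing O] : Type := Pt → Fin 4 → Mt O

/-- compatible one-forms -/
def Is1 (K : Set Pt) (A : Conn O) : Prop := ∀ i, Cmp K {i} fun p => A p i

/-- compatible two-forms -/
structure Is2 (K : Set Pt) (B : Pt → Fin 4 → Fin 4 → Mt O) : Prop where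
  cmp : ∀ i j, Cmp K {i, j} fun p => B p i j
  skew : ∀ p i j, B p j i = -B p i j
  diag : ∀ p i, B p i i = 0

/-- connections with coefficients in `a` -/
structure IsConn (K : Set Pt) (a : Ideal O) (A : Conn O) : Prop where
  cmp : Is1 K A
  mem : ∀ p i, A p i ∈ MC a

/-- gauge transformations -/
structure IsGauge (K : Set Pt) (a : Ideal O) (g : Pt → (Mt O)ˣ) : Prop where
  cmp : Cmp K ∅ fun p => (g p).1
  mem : ∀ p, (g p).1 - 1 ∈ MC a

/-- change of coefficients -/
def mapC (χ : O →+* O') (A : Conn O) : Conn O' := fun p i => mapM χ (A p i)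

/-- additive maps of the coefficients -/
def cmC (f : O →+ O') (A : Conn O) : Conn O' := fun p i => cmM f (A p i)

/-- the action of gauge transformations -/
def gauC (g : Pt → (Mt O)ˣ) (A : Conn O) : Conn O := fun p i => gau i (g p) (A p i)

/-- the exterior derivative of a one-form -/
def d1 (A : Conn O) (p : Pt) (k l : Fin 4) : Mt O := dM k (A p l) - dM l (A p k)

/-- the exterior derivative of a two-form -/
def d2 (B : Pt → Fin 4 → Fin 4 → Mt O) (p : Pt) (i j k : Fin 4) : Mt O :=
  dM i (B p j k) + dM j (B p k i) + dM k (B p i j)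

/-- the curvature -/
def Fc (A : Conn O) (p : Pt) (k l : Fin 4) : Mt O := cv k l (A p k) (A p l)

/-- the covariant derivative of a matrix valued function -/
def cov (k : Fin 4) (A x : Mt O) : Mt O := dM k x + (A * x - x * A)

/-- the action of a lattice symmetry on cells: `(sym σ c p) (σ k) = p k + 2 * c (σ k)` -/
def sym (σ : Equiv.Perm (Fin 4)) (c : Pt) (p : Pt) : Pt := fun j => p (σ.symm j) + 2 * c j

/-- the pull back of a one-form under a lattice symmetry -/
def symC (σ : Equiv.Perm (Fin 4)) (c : Pt) (A : Conn O) : Conn O :=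
  fun p i => rnM σ.symm (A (sym σ c p) (σ i))

/-- the trace of the product of a one-form and a two-form, in the directions `i j k` -/
def w12 (i j k : Fin 4) (η : Fin 4 → Mt O) (B : Fin 4 → Fin 4 → Mt O) : Py O :=
  (η i * B j k + η j * B k i + η k * B i j).trace

/-- the Chern-Simons form in the directions `i j k` -/
def cs (i j k : Fin 4) (B : Fin 4 → Mt O) : Py O :=
  w12 i j k B (fun a b => cv a b (B a) (B b)) - (B i * (B j * B k - B k * B j)).trace

/-- the trace of the product of two two-forms -/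
def w22 (B B' : Fin 4 → Fin 4 → Mt O) : Py O :=
  (B 0 1 * B' 2 3 - B 0 2 * B' 1 3 + B 0 3 * B' 1 2 +
    B 2 3 * B' 0 1 - B 1 3 * B' 0 2 + B 1 2 * B' 0 3).trace

/-- the weight of the face `q` in the cell `p` -/
def hat (O : Type) [CommRing O] (q p : Pt) : Py O :=
  ∏ k, if q k = p k then 1 else if Odd (p k) ∧ q k = p k + 1 then X k
    else if Odd (p k) ∧ q k = p k - 1 then 1 - X k else 0

/-- the sum of `f` over the oriented boundary of a finite set of four-cells; `f τ m` is the value on
the three-cell `τ` which is orthogonal to the direction `m` -/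
def bd3 (Y : Finset Pt) (f : Pt → Fin 4 → O) : O :=
  ∑ p ∈ Y, ∑ m : Fin 4, (-1) ^ (m : ℕ) * (f (fc p m true) m - f (fc p m false) m)

/-- the cells on the boundary of `Y` -/
def OnBd3 (Y : Finset Pt) (τ : Pt) (m : Fin 4) : Prop :=
  ¬ (fc τ m true ∈ Y ↔ fc τ m false ∈ Y)

/-- the logarithm of a unipotent element -/
def lg {R : Type} [Ring R] [Algebra ℚ R] (u : R) : R :=
  ∑ n ∈ Finset.range (nilpotencyClass (u - 1)), ((-1 : ℚ) ^ (n + 1) / n) • (u - 1) ^ n

variable [Algebra ℚ O] [Algebra ℚ O']

/-- the holonomy of a move from `p` to `fc p k s`, at the position `t` -/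
def mv (A : Conn O) (p : Pt) (k : Fin 4) (s : Bool) : (Mt O)ˣ :=
  if Odd (p k) then (step k s (A p k))⁻¹ else step k (!s) (A (fc p k s) k)

open Classical in
/-- the holonomy from `p` to a neighbouring cell `q` -/
def tr (A : Conn O) (p q : Pt) : (Mt O)ˣ :=
  if h : ∃ x : Fin 4 × Bool, q = fc p x.1 x.2 then mv A p h.choose.1 h.choose.2 else 1

/-- the holonomy along the path which starts at `p` and visits the cells of the list -/
def hol (A : Conn O) : Pt → List Pt → (Mt O)ˣ
  | _, [] => 1
  | p, q :: l => tr A p q * hol A q l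

/-- ordered steps from the lowest corner -/
def canL : List (Fin 4) → (Fin 4 → Mt O) → (Mt O)ˣ
  | [], _ => 1
  | k :: ks, B => canL ks (fun i => evM k false (B i)) * step k false (B k)

/-- the transport from the lowest corner of a cell to the position `t` -/
def can (B : Fin 4 → Mt O) : (Mt O)ˣ := canL [0, 1, 2, 3] B

/-- the integral of the Chern-Simons form over a three-cell orthogonal to `m` -/
def csI (A : Conn O) (τ : Pt) (m : Fin 4) : O :=
  II (cs (m.succAbove 0) (m.succAbove 1) (m.succAbove 2) (A τ))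

/-- the integral of a product over a three-cell orthogonal to `m` -/
def w12I (η : Conn O) (B : Pt → Fin 4 → Fin 4 → Mt O) (τ : Pt) (m : Fin 4) : O :=
  II (w12 (m.succAbove 0) (m.succAbove 1) (m.succAbove 2) (η τ) (B τ))

end Vale.Agent.P215Z.Fm
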