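import Vale.Agent.P215Z.Fm.Defs

/-!
# P215, forms: holonomy along lattice paths
-/

set_option linter.unusedSectionVars false

noncomputable section

namespace Vale.Agent.P215Z.Fm

open MvPolynomial

/-! ### neighbours -/

theorem fc_self (p : Pt) (k : Fin 4) (s : Bool) : fc p k s k = p k + if s then 1 else -1 := by
  cases s <;> simp [fc, ee, sub_eq_add_neg]

theorem fc_ne {p : Pt} {j k : Fin 4} (h : j ≠ k) (s : Bool) : fc p k s j = p j := by
  cases s <;> simp [fc, ee, h]

theorem fc_fc (p : Pt) (k : Fin 4) (s : Bool) : fc (fc p k s) k (!s) = p := by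
  cases s <;> simp [fc]

theorem fc_fc' (p : Pt) (k : Fin 4) (s : Bool) : fc (fc p k (!s)) k s = p := by
  cases s <;> simp [fc]

theorem fc_comm (p : Pt) (j k : Fin 4) (s s' : Bool) :
    fc (fc p j s) k s' = fc (fc p k s') j s := by
  cases s <;> cases s' <;> simp only [fc, if_true, Bool.false_eq_true, if_false] <;> abel

theorem odd_fc (p : Pt) (k : Fin 4) (s : Bool) : Odd (fc p k s k) ↔ ¬ Odd (p k) := by
  rw [fc_self]
  cases s
  · simp only [Bool.false_eq_true, if_false, Int.odd_iff]; omega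
  · simp only [if_true, Int.odd_iff]; omega

theorem fc_ne_self (p : Pt) (k : Fin 4) (s : Bool) : fc p k s ≠ p := fun h => by
  have h1 := congrFun h k
  rw [fc_self] at h1
  cases s <;> simp at h1

theorem fc_inj {p : Pt} {k k' : Fin 4} {s s' : Bool} (h : fc p k s = fc p k' s') :
    k = k' ∧ s = s' := by
  by_cases hk : k = k'
  · subst hk
    have h1 := congrFun h k
    rw [fc_self, fc_self] at h1
    cases s <;> cases s' <;> simp_all
  · have h1 := congrFun h k
    rw [fc_self, fc_ne hk] at h1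
    cases s <;> simp at h1

theorem Adj.refl (p : Pt) : Adj p p := Or.inl rfl

theorem Adj.fc (p : Pt) (k : Fin 4) (s : Bool) : Adj p (fc p k s) := Or.inr ⟨k, s, rfl⟩

theorem Adj.symm {p q : Pt} (h : Adj p q) : Adj q p := by
  rcases h with rfl | ⟨k, s, rfl⟩
  · exact Or.inl rfl
  · exact Or.inr ⟨k, !s, (fc_fc p k s).symm⟩

theorem sym_fc (σ : Equiv.Perm (Fin 4)) (c p : Pt) (k : Fin 4) (s : Bool) :
    sym σ c (fc p k s) = fc (sym σ c p) (σ k) s := by
  funext j
  by_cases h : j = σ k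
  · subst h
    rw [fc_self]
    simp only [sym, Equiv.symm_apply_apply, fc_self]
    ring
  · rw [fc_ne h]
    have h1 : σ.symm j ≠ k := fun h1 => h (by rw [← h1, Equiv.apply_symm_apply])
    simp only [sym, fc_ne h1]

theorem odd_sym (σ : Equiv.Perm (Fin 4)) (c p : Pt) (k : Fin 4) :
    Odd (sym σ c p (σ k)) ↔ Odd (p k) := by
  simp only [sym, Equiv.symm_apply_apply, Int.odd_iff]
  omega

theorem sym_injective (σ : Equiv.Perm (Fin 4)) (c : Pt) : Function.Injective (sym σ c) := by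
  intro p q h
  funext j
  have h1 := congrFun h (σ j)
  simpa [sym] using h1

/-- paths of neighbouring cells in `K` -/
def IsPath (K : Set Pt) : Pt → List Pt → Prop
  | p, [] => p ∈ K
  | p, q :: l => p ∈ K ∧ Adj p q ∧ IsPath K q l

theorem IsPath.head {K : Set Pt} {p : Pt} {l : List Pt} (h : IsPath K p l) : p ∈ K := by
  cases l
  · exact h
  · exact h.1

theorem IsPath.mem {K : Set Pt} {p : Pt} {l : List Pt} (h : IsPath K p l) : ∀ q ∈ l, q ∈ K := by
  induction l generalizing p with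
  | nil => simp
  | cons q l ih =>
    intro r hr
    rcases List.mem_cons.1 hr with rfl | hr
    · exact h.2.2.head
    · exact ih h.2.2 r hr

theorem IsPath.mono {K K' : Set Pt} {p : Pt} {l : List Pt} (h : IsPath K p l)
    (hp : p ∈ K') (hl : ∀ q ∈ l, q ∈ K') : IsPath K' p l := by
  induction l generalizing p with
  | nil => exact hp
  | cons q l ih =>
    exact ⟨hp, h.2.1, ih h.2.2 (hl q (by simp)) fun r hr => hl r (by simp [hr])⟩

theorem isPath_append {K : Set Pt} {p : Pt} {l l' : List Pt} :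
    IsPath K p (l ++ l') ↔ IsPath K p l ∧ IsPath K (l.getLastD p) l' := by
  induction l generalizing p with
  | nil => exact ⟨fun h => ⟨h.head, h⟩, fun h => h.2⟩
  | cons q l ih =>
    rw [List.getLastD_cons]
    change (_ ∧ _ ∧ IsPath K q (l ++ l')) ↔ (_ ∧ _ ∧ _) ∧ _
    rw [ih, and_assoc, and_assoc]

theorem IsPath.last {K : Set Pt} {p : Pt} {l : List Pt} (h : IsPath K p l) :
    l.getLastD p ∈ K := by
  induction l generalizing p with
  | nil => exact h
  | cons q l ih => rw [List.getLastD_cons]; exact ih h.2.2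

/-- the reverse path; it starts at `l.getLastD p` -/
def rev : Pt → List Pt → List Pt
  | _, [] => []
  | p, q :: l => rev q l ++ [p]

theorem getLastD_rev (p : Pt) (l : List Pt) : (rev p l).getLastD (l.getLastD p) = p := by
  cases l with
  | nil => rfl
  | cons q l => simp [rev]

theorem IsPath.rev {K : Set Pt} {p : Pt} {l : List Pt} (h : IsPath K p l) :
    IsPath K (l.getLastD p) (rev p l) := by
  induction l generalizing p with
  | nil => exact h
  | cons q l ih =>
    rw [List.getLastD_cons]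
    refine isPath_append.2 ⟨ih h.2.2, ?_⟩
    rw [getLastD_rev]
    exact ⟨h.2.2.head, h.2.1.symm, h.1⟩

theorem getLastD_append (p : Pt) (l l' : List Pt) :
    (l ++ l').getLastD p = l'.getLastD (l.getLastD p) := by
  induction l generalizing p with
  | nil => rfl
  | cons q l ih => rw [List.cons_append, List.getLastD_cons, List.getLastD_cons, ih]

variable {O O' : Type} [CommRing O] [CommRing O'] [Algebra ℚ O] [Algebra ℚ O']

/-! ### holonomy -/

theorem tr_fc (A : Conn O) (p : Pt) (k : Fin 4) (s : Bool) : tr A p (fc p k s) = mv A p k s := by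
  have h : ∃ x : Fin 4 × Bool, fc p k s = fc p x.1 x.2 := ⟨(k, s), rfl⟩
  rw [tr, dif_pos h]
  obtain ⟨h1, h2⟩ := fc_inj h.choose_spec
  rw [← h1, ← h2]

theorem tr_of_not (A : Conn O) {p q : Pt} (h : ¬ ∃ k s, q = fc p k s) : tr A p q = 1 := by
  rw [tr, dif_neg]
  rintro ⟨x, hx⟩
  exact h ⟨_, _, hx⟩

theorem tr_self (A : Conn O) (p : Pt) : tr A p p = 1 :=
  tr_of_not A fun ⟨k, s, h⟩ => fc_ne_self p k s h.symm

theorem tr_down (A : Conn O) {p : Pt} {k : Fin 4} (h : Odd (p k)) (s : Bool) :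
    tr A p (fc p k s) = (step k s (A p k))⁻¹ := by
  rw [tr_fc, mv, if_pos h]

theorem tr_up (A : Conn O) {p : Pt} {k : Fin 4} (h : Odd (p k)) (s : Bool) :
    tr A (fc p k s) p = step k s (A p k) := by
  have h1 := tr_fc A (fc p k s) k (!s)
  rw [fc_fc] at h1
  rw [h1, mv, if_neg (by rw [odd_fc]; exact not_not.2 h), fc_fc, Bool.not_not]

/-- the three cases of a pair of cells -/
theorem tr_cases (p q : Pt) : (¬ ∃ k s, q = fc p k s) ∨ (∃ k s, Odd (p k) ∧ q = fc p k s) ∨
    ∃ k s, Odd (q k) ∧ p = fc q k s := by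
  by_cases h : ∃ k s, q = fc p k s
  · obtain ⟨k, s, rfl⟩ := h
    by_cases h1 : Odd (p k)
    · exact Or.inr (Or.inl ⟨k, s, h1, rfl⟩)
    · exact Or.inr (Or.inr ⟨k, !s, (odd_fc p k s).2 h1, (fc_fc p k s).symm⟩)
  · exact Or.inl h

theorem tr_symm (A : Conn O) (p q : Pt) : tr A q p = (tr A p q)⁻¹ := by
  rcases tr_cases p q with h | ⟨k, s, h, rfl⟩ | ⟨k, s, h, rfl⟩
  · rw [tr_of_not A h, inv_one, tr_of_not]
    rintro ⟨k, s, rfl⟩
    exact h ⟨k, !s, (fc_fc q k s).symm⟩
  · rw [tr_up A h, tr_down A h, inv_inv]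
  · rw [tr_up A h, tr_down A h]

@[simp] theorem hol_nil (A : Conn O) (p : Pt) : hol A p [] = 1 := rfl

@[simp] theorem hol_cons (A : Conn O) (p q : Pt) (l : List Pt) :
    hol A p (q :: l) = tr A p q * hol A q l := rfl

theorem hol_append (A : Conn O) (p : Pt) (l l' : List Pt) :
    hol A p (l ++ l') = hol A p l * hol A (l.getLastD p) l' := by
  induction l generalizing p with
  | nil => simp
  | cons q l ih => rw [List.cons_append, hol_cons, hol_cons, ih, List.getLastD_cons, mul_assoc]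

theorem hol_rev (A : Conn O) (p : Pt) (l : List Pt) :
    hol A (l.getLastD p) (rev p l) = (hol A p l)⁻¹ := by
  induction l generalizing p with
  | nil => simp [rev]
  | cons q l ih =>
    rw [List.getLastD_cons, rev, hol_append, ih, getLastD_rev, hol_cons, hol_nil, mul_one,
      hol_cons, mul_inv_rev, tr_symm A p q]

/-- the holonomy only depends on the cells of the path -/
theorem tr_local {A A' : Conn O} {p q : Pt} (hp : A p = A' p) (hq : A q = A' q) :
    tr A p q = tr A' p q := by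
  rcases tr_cases p q with h | ⟨k, s, h, rfl⟩ | ⟨k, s, h, rfl⟩
  · rw [tr_of_not A h, tr_of_not A' h]
  · rw [tr_down A h, tr_down A' h, hp]
  · rw [tr_up A h, tr_up A' h, hq]

theorem hol_local {A A' : Conn O} {p : Pt} {l : List Pt} (hp : A p = A' p)
    (hl : ∀ q ∈ l, A q = A' q) : hol A p l = hol A' p l := by
  induction l generalizing p with
  | nil => rfl
  | cons q l ih =>
    rw [hol_cons, hol_cons, tr_local hp (hl q (by simp)),
      ih (hl q (by simp)) fun r hr => hl r (by simp [hr])]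

theorem mapM_tr {A : Conn O} (hA : ∀ p i, Nl (A p i)) (χ : O →+* O') (p q : Pt) :
    mapM χ (tr A p q).1 = (tr (mapC χ A) p q).1 := by
  rcases tr_cases p q with h | ⟨k, s, h, rfl⟩ | ⟨k, s, h, rfl⟩
  · rw [tr_of_not A h, tr_of_not _ h, Units.val_one, map_one, Units.val_one]
  · rw [tr_down A h, tr_down _ h]
    exact map_inv_unit _ (mapM_step (hA _ _) χ)
  · rw [tr_up A h, tr_up _ h]
    exact mapM_step (hA _ _) χ

theorem mapM_hol {A : Conn O} (hA : ∀ p i, Nl (A p i)) (χ : O →+* O') (p : Pt) (l : List Pt) :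
    mapM χ (hol A p l).1 = (hol (mapC χ A) p l).1 := by
  induction l generalizing p with
  | nil => exact map_one _
  | cons q l ih => rw [hol_cons, hol_cons, Units.val_mul, Units.val_mul, map_mul, ih, mapM_tr hA]

theorem mapM_hol_inv {A : Conn O} (hA : ∀ p i, Nl (A p i)) (χ : O →+* O') (p : Pt)
    (l : List Pt) : mapM χ ((hol A p l)⁻¹).1 = ((hol (mapC χ A) p l)⁻¹).1 :=
  map_inv_unit _ (mapM_hol hA χ p l)

omit [Algebra ℚ O] [Algebra ℚ O'] in
theorem nl_mapC {A : Conn O} (hA : ∀ p i, Nl (A p i)) (χ : O →+* O') (p : Pt) (i : Fin 4) :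
    Nl (mapC χ A p i) := (hA p i).mapM χ

omit [Algebra ℚ O] in
theorem IsConn.nl {K : Set Pt} {a : Ideal O} {A : Conn O} (h : IsConn K a A) (ha : IsNilpotent a)
    (p : Pt) (i : Fin 4) : Nl (A p i) := Nl.of ha (h.mem p i)

theorem hol_congr {A A' : Conn O} (hA : ∀ p i, Nl (A p i)) (hA' : ∀ p i, Nl (A' p i))
    {b : Ideal O} {p : Pt} {l : List Pt} (hp : ∀ i, A' p i - A p i ∈ MC b)
    (hl : ∀ q ∈ l, ∀ i, A' q i - A q i ∈ MC b) : (hol A' p l).1 - (hol A p l).1 ∈ MC b := by
  rw [MC_sub_iff, mapM_hol hA, mapM_hol hA', hol_local]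
  · exact funext fun i => MC_sub_iff.1 (hp i)
  · exact fun q hq => funext fun i => MC_sub_iff.1 (hl q hq i)

theorem tr_congr {A A' : Conn O} (hA : ∀ p i, Nl (A p i)) (hA' : ∀ p i, Nl (A' p i))
    {b : Ideal O} {p q : Pt} (hp : ∀ i, A' p i - A p i ∈ MC b)
    (hq : ∀ i, A' q i - A q i ∈ MC b) : (tr A' p q).1 - (tr A p q).1 ∈ MC b := by
  have h := hol_congr hA hA' (l := [q]) hp (by simpa using hq)
  simpa using h

theorem tr_zero (p q : Pt) : tr (0 : Conn O) p q = 1 := by
  rcases tr_cases p q with h | ⟨k, s, h, rfl⟩ | ⟨k, s, h, rfl⟩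
  · exact tr_of_not _ h
  · rw [tr_down _ h, Pi.zero_apply, Pi.zero_apply, step_zero, inv_one]
  · rw [tr_up _ h, Pi.zero_apply, Pi.zero_apply, step_zero]

theorem hol_zero (p : Pt) (l : List Pt) : hol (0 : Conn O) p l = 1 := by
  induction l generalizing p with
  | nil => rfl
  | cons q l ih => rw [hol_cons, tr_zero, ih, mul_one]

theorem hol_sub_one {A : Conn O} (hA : ∀ p i, Nl (A p i)) {b : Ideal O} {p : Pt} {l : List Pt}
    (hp : ∀ i, A p i ∈ MC b) (hl : ∀ q ∈ l, ∀ i, A q i ∈ MC b) : (hol A p l).1 - 1 ∈ MC b := by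
  have h := hol_congr (A := 0) (fun _ _ => Nl.zero) hA (b := b) (p := p) (l := l)
    (by simpa using hp) (by simpa using hl)
  rwa [hol_zero] at h

theorem tr_sub_one {A : Conn O} (hA : ∀ p i, Nl (A p i)) {b : Ideal O} {p q : Pt}
    (hp : ∀ i, A p i ∈ MC b) (hq : ∀ i, A q i ∈ MC b) : (tr A p q).1 - 1 ∈ MC b := by
  have h := hol_sub_one hA (l := [q]) hp (by simpa using hq)
  simpa using h

/-! ### gauge transformations and symmetries -/

theorem tr_gauC {K : Set Pt} {a : Ideal O} (ha : IsNilpotent a) {A : Conn O}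
    (hA : ∀ p i, Nl (A p i)) {g : Pt → (Mt O)ˣ} (hg : IsGauge K a g) {p q : Pt} (hp : p ∈ K)
    (hq : q ∈ K) (h : Adj p q) : tr (gauC g A) p q = (g p)⁻¹ * tr A p q * g q := by
  have key : ∀ p ∈ K, ∀ k s, Odd (p k) →
      step k s (gauC g A p k) = (g (fc p k s))⁻¹ * step k s (A p k) * g p := by
    intro p hp k s h
    have h1 := step_gau (k := k) (ε := s) (hA p k) (Nl.of ha (hg.mem p))
    rw [hg.cmp.face p hp k (by simp) h] at h1
    rw [mul_assoc, eq_inv_mul_iff_mul_eq]
    exact Units.ext h1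
  rcases tr_cases p q with h' | ⟨k, s, h', rfl⟩ | ⟨k, s, h', rfl⟩
  · rcases h with rfl | h
    · rw [tr_self, tr_self, mul_one, inv_mul_cancel]
    · exact absurd h h'
  · rw [tr_down _ h', tr_down _ h', key p hp k s h']
    group
  · rw [tr_up _ h', tr_up _ h', key q hq k s h']

theorem hol_gauC {K : Set Pt} {a : Ideal O} (ha : IsNilpotent a) {A : Conn O}
    (hA : ∀ p i, Nl (A p i)) {g : Pt → (Mt O)ˣ} (hg : IsGauge K a g) {p : Pt} {l : List Pt}
    (h : IsPath K p l) : hol (gauC g A) p l = (g p)⁻¹ * hol A p l * g (l.getLastD p) := by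
  induction l generalizing p with
  | nil => simp
  | cons q l ih =>
    rw [hol_cons, hol_cons, ih h.2.2, tr_gauC ha hA hg h.1 h.2.2.head h.2.1, List.getLastD_cons]
    group

theorem tr_symC {A : Conn O} (hA : ∀ p i, Nl (A p i)) (σ : Equiv.Perm (Fin 4)) (c p q : Pt) :
    (tr (symC σ c A) p q).1 = rnM σ.symm (tr A (sym σ c p) (sym σ c q)).1 := by
  have key : ∀ p k s, rnM σ.symm (step (σ k) s (A (sym σ c p) (σ k))).1 =
      (step k s (symC σ c A p k)).1 := by
    intro p k s
    rw [rnM_step (hA _ _), Equiv.symm_apply_apply]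
    rfl
  rcases tr_cases p q with h | ⟨k, s, h, rfl⟩ | ⟨k, s, h, rfl⟩
  · rw [tr_of_not _ h, tr_of_not, Units.val_one, map_one]
    rintro ⟨k, s, h1⟩
    refine h ⟨σ.symm k, s, sym_injective σ c ?_⟩
    rw [sym_fc, Equiv.apply_symm_apply, h1]
  · rw [tr_down _ h, sym_fc, tr_down _ ((odd_sym σ c p k).2 h)]
    exact (map_inv_unit _ (key p k s)).symm
  · rw [tr_up _ h, sym_fc, tr_up _ ((odd_sym σ c q k).2 h), key]

theorem hol_symC {A : Conn O} (hA : ∀ p i, Nl (A p i)) (σ : Equiv.Perm (Fin 4)) (c p : Pt)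
    (l : List Pt) :
    (hol (symC σ c A) p l).1 = rnM σ.symm (hol A (sym σ c p) (l.map (sym σ c))).1 := by
  induction l generalizing p with
  | nil => exact (map_one _).symm
  | cons q l ih =>
    rw [List.map_cons, hol_cons, hol_cons, Units.val_mul, Units.val_mul, map_mul, ih, tr_symC hA]

/-! ### variation along a derivation of the coefficients -/

/-- the logarithmic derivative -/
def dv (D : O →+ O) (u : (Mt O)ˣ) : Mt O := cmM D u.1 * (u⁻¹).1

section Dv

variable {D : O →+ O} (hD : ∀ a b, D (a * b) = D a * b + a * D b)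

omit [Algebra ℚ O]
include hD

theorem dv_one : dv D (1 : (Mt O)ˣ) = 0 := by
  rw [dv, Units.val_one, cmM_one_of_leibniz hD, zero_mul]

theorem dv_mul (u v : (Mt O)ˣ) : dv D (u * v) = dv D u + u.1 * dv D v * (u⁻¹).1 := by
  simp only [dv, Units.val_mul, mul_inv_rev, cmM_mul_of_leibniz hD, add_mul, mul_assoc,
    Units.mul_inv_cancel_left]

theorem dv_inv (u : (Mt O)ˣ) : dv D u⁻¹ = -((u⁻¹).1 * dv D u * u.1) := by
  have h := dv_mul hD u⁻¹ u
  rw [inv_mul_cancel, dv_one hD, inv_inv] at h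
  exact eq_neg_of_add_eq_zero_left h.symm

end Dv

theorem dv_step {D : O →+ O} (hD : ∀ a b, D (a * b) = D a * b + a * D b) {k : Fin 4} {ε : Bool}
    {A : Mt O} (h : Nl A) :
    dv D (step k ε A) = InM k ε ((step k ε A).1 * cmM D A * ((step k ε A)⁻¹).1) := cmM_step h hD

theorem dv_hol_cons {D : O →+ O} (hD : ∀ a b, D (a * b) = D a * b + a * D b) (A : Conn O)
    (p q : Pt) (l : List Pt) : dv D (hol A p (q :: l)) =
      dv D (tr A p q) + (tr A p q).1 * dv D (hol A q l) * ((tr A p q)⁻¹).1 := dv_mul hD _ _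

theorem dv_tr_mem {D : O →+ O} (hD : ∀ a b, D (a * b) = D a * b + a * D b) {A : Conn O}
    (hA : ∀ p i, Nl (A p i)) {b : Ideal O} {p q : Pt} (hp : ∀ i, cmM D (A p i) ∈ MC b)
    (hq : ∀ i, cmM D (A q i) ∈ MC b) : dv D (tr A p q) ∈ MC b := by
  rcases tr_cases p q with h | ⟨k, s, h, rfl⟩ | ⟨k, s, h, rfl⟩
  · rw [tr_of_not _ h, dv_one hD]; exact zero_mem _
  · rw [tr_down _ h, dv_inv hD, dv_step hD (hA _ _)]
    exact neg_mem (MI_conj (MC_InM _ _ (MI_conj (hp k) _ _)) _ _)
  · rw [tr_up _ h, dv_step hD (hA _ _)]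
    exact MC_InM _ _ (MI_conj (hq k) _ _)

theorem dv_hol_mem {D : O →+ O} (hD : ∀ a b, D (a * b) = D a * b + a * D b) {A : Conn O}
    (hA : ∀ p i, Nl (A p i)) {b : Ideal O} {p : Pt} {l : List Pt} (hp : ∀ i, cmM D (A p i) ∈ MC b)
    (hl : ∀ q ∈ l, ∀ i, cmM D (A q i) ∈ MC b) : dv D (hol A p l) ∈ MC b := by
  induction l generalizing p with
  | nil => rw [hol_nil, dv_one hD]; exact zero_mem _
  | cons q l ih =>
    rw [dv_hol_cons hD]
    exact add_mem (dv_tr_mem hD hA hp (hl q (by simp)))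
      (MI_conj (ih (hl q (by simp)) fun r hr => hl r (by simp [hr])) _ _)

end Vale.Agent.P215Z.Fm
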