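import Mathlib

/-!
# P215, forms: calculus of polynomials on the unit four-cube
-/

noncomputable section

namespace Vale.Agent.P215Z.Fm

open MvPolynomial Finsupp

/-- polynomial functions of the position in a cell -/
abbrev Py (O : Type) [CommRing O] : Type := MvPolynomial (Fin 4) O

variable {O O' : Type} [CommRing O] [CommRing O']

/-- the value `1` or `0` -/
def bv (O : Type) [CommRing O] (ε : Bool) : Py O := if ε then 1 else 0

@[simp] theorem bv_true : bv O true = 1 := rfl
@[simp] theorem bv_false : bv O false = 0 := rfl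

/-- restriction to the face `t k = 1` or `t k = 0` -/
def ev (k : Fin 4) (ε : Bool) : Py O →ₐ[O] Py O :=
  aeval fun j => if j = k then bv O ε else X j

@[simp] theorem ev_X_self (k : Fin 4) (ε : Bool) : ev k ε (X k : Py O) = bv O ε := by
  simp [ev]

theorem ev_X_ne {j k : Fin 4} (h : j ≠ k) (ε : Bool) : ev k ε (X j : Py O) = X j := by
  simp [ev, h]

@[simp] theorem ev_C (k : Fin 4) (ε : Bool) (a : O) : ev k ε (C a : Py O) = C a := by
  simp [ev]

@[simp] theorem ev_bv (k : Fin 4) (ε δ : Bool) : ev k ε (bv O δ) = bv O δ := by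
  cases δ <;> simp

@[simp] theorem pderiv_bv (k : Fin 4) (δ : Bool) : pderiv k (bv O δ) = 0 := by
  cases δ <;> simp

theorem ev_ev_self (k : Fin 4) (ε δ : Bool) (f : Py O) : ev k ε (ev k δ f) = ev k δ f := by
  have h : (ev k ε).comp (ev k δ) = (ev k δ : Py O →ₐ[O] Py O) := by
    refine algHom_ext fun j => ?_
    by_cases h : j = k
    · subst h; simp
    · simp [ev_X_ne h]
  exact congrArg (fun T : Py O →ₐ[O] Py O => T f) h

theorem ev_comm {j k : Fin 4} (hjk : j ≠ k) (ε δ : Bool) (f : Py O) :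
    ev j ε (ev k δ f) = ev k δ (ev j ε f) := by
  have h : (ev j ε).comp (ev k δ) = (ev k δ : Py O →ₐ[O] Py O).comp (ev j ε) := by
    refine algHom_ext fun i => ?_
    by_cases h : i = k
    · subst h; simp [ev_X_ne hjk.symm]
    · by_cases h' : i = j
      · subst h'; simp [ev_X_ne h]
      · simp [ev_X_ne h, ev_X_ne h']
  exact congrArg (fun T : Py O →ₐ[O] Py O => T f) h

theorem pderiv_ev_self (k : Fin 4) (ε : Bool) (f : Py O) : pderiv k (ev k ε f) = 0 := by
  induction f using MvPolynomial.induction_on with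
  | C a => simp
  | add p q hp hq => simp [hp, hq]
  | mul_X p j hp =>
    rw [map_mul, pderiv_mul, hp, zero_mul, zero_add]
    by_cases h : j = k
    · subst h; simp
    · rw [ev_X_ne h, pderiv_X_of_ne h, mul_zero]

theorem pderiv_ev_ne {j k : Fin 4} (hjk : j ≠ k) (ε : Bool) (f : Py O) :
    pderiv j (ev k ε f) = ev k ε (pderiv j f) := by
  induction f using MvPolynomial.induction_on with
  | C a => simp
  | add p q hp hq => simp [hp, hq]
  | mul_X p i hp =>
    rw [map_mul, pderiv_mul, pderiv_mul, map_add, map_mul, map_mul, hp]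
    congr 2
    by_cases h : i = k
    · subst h; rw [ev_X_self, pderiv_bv, pderiv_X_of_ne hjk.symm, map_zero]
    · rw [ev_X_ne h]
      by_cases h' : i = j
      · subst h'; simp
      · rw [pderiv_X_of_ne h', map_zero]

theorem pderiv_comm (j k : Fin 4) (f : Py O) : pderiv j (pderiv k f) = pderiv k (pderiv j f) := by
  induction f using MvPolynomial.induction_on with
  | C a => simp
  | add p q hp hq => simp [hp, hq]
  | mul_X p i hp =>
    have h : ∀ a b : Fin 4, pderiv a (pderiv b (X i : Py O)) = 0 := by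
      intro a b
      by_cases h : i = b
      · subst h; simp
      · rw [pderiv_X_of_ne h, map_zero]
    simp only [pderiv_mul, map_add, hp, h]
    ring

theorem ev_monomial (k : Fin 4) (ε : Bool) (m : Fin 4 →₀ ℕ) (a : O) :
    ev k ε (monomial m a : Py O) = bv O ε ^ m k * monomial (m.erase k) a := by
  have h1 : (monomial m a : Py O) = X k ^ m k * monomial (m.erase k) a := by
    rw [X_pow_eq_monomial, monomial_mul, one_mul, single_add_erase]
  have h2 : ev k ε (monomial (m.erase k) a : Py O) = monomial (m.erase k) a := by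
    rw [monomial_eq, map_mul, ev_C, map_finsuppProd]
    congr 1
    refine Finsupp.prod_congr fun j hj => ?_
    have h3 : j ≠ k := by
      rintro rfl
      simp at hj
    rw [map_pow, ev_X_ne h3]
  rw [h1, map_mul, map_pow, ev_X_self, h2]

/-! ### coefficientwise maps -/

/-- an additive map applied to all coefficients -/
def cm (f : O →+ O') : Py O →+ Py O' where
  toFun := AddMonoidAlgebra.map f
  map_zero' := AddMonoidAlgebra.map_zero f
  map_add' := AddMonoidAlgebra.map_add f

theorem coeff_cm (f : O →+ O') (p : Py O) (m : Fin 4 →₀ ℕ) : coeff m (cm f p) = f (coeff m p) :=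
  coeff_addMonoidAlgebraMap f p m

theorem cm_monomial (f : O →+ O') (m : Fin 4 →₀ ℕ) (a : O) :
    cm f (monomial m a) = monomial m (f a) := by
  ext n
  rw [coeff_cm, coeff_monomial, coeff_monomial]
  split_ifs
  · rfl
  · exact map_zero f

theorem cm_C (f : O →+ O') (a : O) : cm f (C a) = C (f a) := cm_monomial f 0 a

theorem map_eq_cm (χ : O →+* O') (p : Py O) : map χ p = cm χ.toAddMonoidHom p := by
  ext n
  rw [coeff_cm, coeff_map]
  rfl

theorem cm_X_mul (f : O →+ O') (k : Fin 4) (p : Py O) : cm f (X k * p) = X k * cm f p := by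
  ext n
  rw [coeff_cm, coeff_X_mul', coeff_X_mul', coeff_cm]
  split_ifs
  · rfl
  · exact map_zero f

theorem cm_bv_mul (f : O →+ O') (ε : Bool) (p : Py O) :
    cm f (bv O ε * p) = bv O' ε * cm f p := by
  cases ε <;> simp

theorem cm_pderiv (f : O →+ O') (k : Fin 4) (p : Py O) :
    cm f (pderiv k p) = pderiv k (cm f p) := by
  ext n
  have h : ∀ (R : Type) [CommRing R] (a : R), a * ((n k : R) + 1) = (n k + 1) • a := by
    intro R _ a
    rw [nsmul_eq_mul, mul_comm, Nat.cast_succ]
  rw [coeff_cm, coeff_pderiv, coeff_pderiv, coeff_cm, h, h, map_nsmul]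

theorem cm_ev (f : O →+ O') (k : Fin 4) (ε : Bool) (p : Py O) :
    cm f (ev k ε p) = ev k ε (cm f p) := by
  induction p using MvPolynomial.induction_on' with
  | add p q hp hq => simp only [map_add, hp, hq]
  | monomial m a =>
    rw [cm_monomial, ev_monomial, ev_monomial]
    induction m k with
    | zero => rw [pow_zero, pow_zero, one_mul, one_mul, cm_monomial]
    | succ n ih => rw [pow_succ', pow_succ', mul_assoc, mul_assoc, cm_bv_mul, ih]

theorem map_ev (χ : O →+* O') (k : Fin 4) (ε : Bool) (p : Py O) :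
    map χ (ev k ε p) = ev k ε (map χ p) := by
  rw [map_eq_cm, map_eq_cm, cm_ev]

/-- a derivation of the coefficients acts as a derivation -/
theorem cm_mul_of_leibniz {D : O →+ O} (hD : ∀ a b, D (a * b) = D a * b + a * D b)
    (p q : Py O) : cm D (p * q) = cm D p * q + p * cm D q := by
  ext n
  simp only [coeff_cm, coeff_add, coeff_mul, map_sum, hD, Finset.sum_add_distrib]

/-! ### ideals of coefficients -/

/-- polynomials with coefficients in `b` -/
abbrev Cf (b : Ideal O) : Ideal (Py O) := b.map (C : O →+* Py O)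

theorem mem_Cf {b : Ideal O} {p : Py O} : p ∈ Cf b ↔ ∀ m, coeff m p ∈ b := mem_map_C_iff

theorem mem_Cf_iff_map {b : Ideal O} {p : Py O} :
    p ∈ Cf b ↔ map (Ideal.Quotient.mk b) p = 0 := by
  rw [mem_Cf, MvPolynomial.ext_iff]
  simp only [coeff_map, coeff_zero, Ideal.Quotient.eq_zero_iff_mem]

theorem Cf_mul (b b' : Ideal O) : Cf (b * b') = Cf b * Cf b' := Ideal.map_mul _ _ _

theorem Cf_sup (b b' : Ideal O) : Cf (b ⊔ b') = Cf b ⊔ Cf b' := Ideal.map_sup _ _ _

theorem Cf_mono {b b' : Ideal O} (h : b ≤ b') : Cf b ≤ Cf b' := Ideal.map_mono h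

theorem Cf_bot : Cf (⊥ : Ideal O) = ⊥ := Ideal.map_bot

theorem cm_mem {f : O →+ O'} {b : Ideal O} {b' : Ideal O'} (h : ∀ a ∈ b, f a ∈ b') {p : Py O}
    (hp : p ∈ Cf b) : cm f p ∈ Cf b' :=
  mem_Cf.2 fun m => by rw [coeff_cm]; exact h _ (mem_Cf.1 hp m)

/-- linear operators preserve the ideals of coefficients -/
theorem lin_mem (T : Py O →ₗ[O] Py O) {b : Ideal O} {p : Py O} (hp : p ∈ Cf b) : T p ∈ Cf b := by
  rw [p.as_sum, map_sum]
  refine Ideal.sum_mem _ fun m _ => ?_
  have h : (monomial m (coeff m p) : Py O) = coeff m p • monomial m 1 := by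
    rw [smul_monomial, smul_eq_mul, mul_one]
  rw [h, map_smul, smul_eq_C_mul]
  exact Ideal.mul_mem_right _ _ (Ideal.mem_map_of_mem _ (mem_Cf.1 hp m))

theorem lin_mem' (T : Py O →ₗ[O] O) {b : Ideal O} {p : Py O} (hp : p ∈ Cf b) : T p ∈ b := by
  rw [p.as_sum, map_sum]
  refine Ideal.sum_mem _ fun m _ => ?_
  have h : (monomial m (coeff m p) : Py O) = coeff m p • monomial m 1 := by
    rw [smul_monomial, smul_eq_mul, mul_one]
  rw [h, map_smul, smul_eq_mul]
  exact Ideal.mul_mem_right _ _ (mem_Cf.1 hp m)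

theorem ev_mem {b : Ideal O} {p : Py O} (k : Fin 4) (ε : Bool) (hp : p ∈ Cf b) :
    ev k ε p ∈ Cf b := lin_mem (ev k ε).toLinearMap hp

theorem pderiv_mem {b : Ideal O} {p : Py O} (k : Fin 4) (hp : p ∈ Cf b) :
    pderiv k p ∈ Cf b := lin_mem (pderiv k).toLinearMap hp

/-! ### integration -/

variable [Algebra ℚ O] [Algebra ℚ O']

/-- the integral from `0` to `t k` -/
def In0 (k : Fin 4) : Py O →ₗ[O] Py O :=
  (basisMonomials (Fin 4) O).constr O fun m =>
    monomial (m + single k 1) (algebraMap ℚ O ((m k : ℚ) + 1)⁻¹)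

theorem In0_monomial (k : Fin 4) (m : Fin 4 →₀ ℕ) (a : O) :
    In0 k (monomial m a : Py O) = monomial (m + single k 1) (((m k : ℚ) + 1)⁻¹ • a) := by
  have h : (monomial m a : Py O) = a • basisMonomials (Fin 4) O m := by
    rw [coe_basisMonomials, smul_monomial, smul_eq_mul, mul_one]
  rw [h, map_smul, In0, Module.Basis.constr_basis, smul_monomial, smul_eq_mul, Algebra.smul_def,
    mul_comm]

theorem pderiv_In0 (k : Fin 4) (f : Py O) : pderiv k (In0 k f) = f := by
  induction f using MvPolynomial.induction_on' with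
  | add p q hp hq => simp only [map_add, hp, hq]
  | monomial m a =>
    rw [In0_monomial, pderiv_monomial, add_tsub_cancel_right]
    congr 1
    have h : ((m k : ℚ) + 1) ≠ 0 := by positivity
    have h2 : (((m + single k 1 : Fin 4 →₀ ℕ) k : ℕ) : O) = algebraMap ℚ O ((m k : ℚ) + 1) := by
      simp
    rw [h2, mul_comm, ← Algebra.smul_def, smul_smul, mul_inv_cancel₀ h, one_smul]

/-- a polynomial which does not depend on `t k` -/
theorem ev_of_pderiv {k : Fin 4} {f : Py O} (h : pderiv k f = 0) (ε : Bool) : ev k ε f = f := by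
  have h1 : ∀ m ∈ f.support, m k = 0 := by
    intro m hm
    by_contra h0
    have h2 : m = (m - single k 1) + single k 1 := by
      rw [tsub_add_cancel_of_le]
      exact single_le_iff.2 (Nat.one_le_iff_ne_zero.2 h0)
    have h3 := coeff_pderiv (i := k) f (m - single k 1)
    rw [h, coeff_zero, ← h2] at h3
    set n : ℕ := (m - single k 1 : Fin 4 →₀ ℕ) k
    have h4 : ((n : O) + 1) = algebraMap ℚ O ((n : ℚ) + 1) := by simp
    have h5 : ((n : ℚ) + 1) ≠ 0 := by positivity
    rw [h4, mul_comm, ← Algebra.smul_def] at h3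
    have h6 : coeff m f = 0 := by
      rw [← one_smul ℚ (coeff m f), ← inv_mul_cancel₀ h5, ← smul_smul, ← h3, smul_zero]
    exact (MvPolynomial.mem_support_iff.1 hm) h6
  conv_rhs => rw [f.as_sum]
  conv_lhs => rw [f.as_sum, map_sum]
  refine Finset.sum_congr rfl fun m hm => ?_
  rw [ev_monomial, h1 m hm, pow_zero, one_mul,
    erase_of_notMem_support (by rw [Finsupp.notMem_support_iff]; exact h1 m hm)]

/-- uniqueness of primitives -/
theorem eq_of_pderiv {k : Fin 4} {ε : Bool} {f g : Py O} (h : pderiv k f = pderiv k g)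
    (h' : ev k ε f = ev k ε g) : f = g := by
  have h1 : pderiv k (f - g) = 0 := by rw [map_sub, h, sub_self]
  have h2 := ev_of_pderiv h1 ε
  rw [map_sub, h', sub_self] at h2
  exact sub_eq_zero.1 h2.symm

/-- the integral from `ε` to `t k` -/
def In (k : Fin 4) (ε : Bool) : Py O →ₗ[O] Py O :=
  In0 k - (ev k ε).toLinearMap ∘ₗ In0 k

theorem pderiv_In (k : Fin 4) (ε : Bool) (f : Py O) : pderiv k (In k ε f) = f := by
  change pderiv k (In0 k f - ev k ε (In0 k f)) = f
  rw [map_sub, pderiv_In0, pderiv_ev_self, sub_zero]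

theorem ev_In (k : Fin 4) (ε : Bool) (f : Py O) : ev k ε (In k ε f) = 0 := by
  change ev k ε (In0 k f - ev k ε (In0 k f)) = 0
  rw [map_sub, ev_ev_self, sub_self]

theorem In_pderiv (k : Fin 4) (ε : Bool) (f : Py O) : In k ε (pderiv k f) = f - ev k ε f :=
  eq_of_pderiv (k := k) (ε := ε) (by rw [pderiv_In, map_sub, pderiv_ev_self, sub_zero])
    (by rw [ev_In, map_sub, ev_ev_self, sub_self])

theorem pderiv_In_ne {j k : Fin 4} (h : j ≠ k) (ε : Bool) (f : Py O) :
    pderiv j (In k ε f) = In k ε (pderiv j f) :=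
  eq_of_pderiv (k := k) (ε := ε) (by rw [pderiv_comm, pderiv_In, pderiv_In])
    (by rw [← pderiv_ev_ne h, ev_In, ev_In, map_zero])

theorem ev_In_ne {j k : Fin 4} (h : j ≠ k) (δ ε : Bool) (f : Py O) :
    ev j δ (In k ε f) = In k ε (ev j δ f) :=
  eq_of_pderiv (k := k) (ε := ε) (by rw [pderiv_ev_ne h.symm, pderiv_In, pderiv_In])
    (by rw [← ev_comm h, ev_In, ev_In, map_zero])

theorem In_comm {j k : Fin 4} (h : j ≠ k) (δ ε : Bool) (f : Py O) :
    In j δ (In k ε f) = In k ε (In j δ f) :=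
  eq_of_pderiv (k := k) (ε := ε) (by rw [pderiv_In_ne h.symm, pderiv_In, pderiv_In])
    (by rw [ev_In_ne h.symm, ev_In, ev_In, map_zero])

theorem In_mul {k : Fin 4} (ε : Bool) {g : Py O} (hg : pderiv k g = 0) (f : Py O) :
    In k ε (g * f) = g * In k ε f :=
  eq_of_pderiv (k := k) (ε := ε) (by rw [pderiv_In, pderiv_mul, hg, zero_mul, zero_add, pderiv_In])
    (by rw [ev_In, map_mul, ev_In, mul_zero])

theorem cm_In (f : O →+ O') (k : Fin 4) (ε : Bool) (p : Py O) :
    cm f (In k ε p) = In k ε (cm f p) :=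
  eq_of_pderiv (k := k) (ε := ε) (by rw [← cm_pderiv, pderiv_In, pderiv_In])
    (by rw [← cm_ev, ev_In, ev_In, map_zero])

theorem map_In (χ : O →+* O') (k : Fin 4) (ε : Bool) (p : Py O) :
    map χ (In k ε p) = In k ε (map χ p) := by
  rw [map_eq_cm, map_eq_cm, cm_In]

theorem In_mem {b : Ideal O} {p : Py O} (k : Fin 4) (ε : Bool) (hp : p ∈ Cf b) :
    In k ε p ∈ Cf b := lin_mem _ hp

/-- the integral from `0` to `1` in the variable `t k` -/
def Tot (k : Fin 4) : Py O →ₗ[O] Py O := (ev k true).toLinearMap ∘ₗ In k false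

theorem Tot_apply (k : Fin 4) (f : Py O) : Tot k f = ev k true (In k false f) := rfl

theorem pderiv_Tot (k : Fin 4) (f : Py O) : pderiv k (Tot k f) = 0 := pderiv_ev_self _ _ _

theorem ev_Tot (k : Fin 4) (ε : Bool) (f : Py O) : ev k ε (Tot k f) = Tot k f := ev_ev_self _ _ _ _

theorem Tot_pderiv (k : Fin 4) (f : Py O) : Tot k (pderiv k f) = ev k true f - ev k false f := by
  rw [Tot_apply, In_pderiv, map_sub, ev_ev_self]

theorem Tot_mul {k : Fin 4} {g : Py O} (hg : pderiv k g = 0) (f : Py O) :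
    Tot k (g * f) = g * Tot k f := by
  rw [Tot_apply, In_mul _ hg, map_mul, ev_of_pderiv hg, Tot_apply]

theorem Tot_of_pderiv {k : Fin 4} {g : Py O} (hg : pderiv k g = 0) : Tot k g = g := by
  have h1 : Tot k (1 : Py O) = 1 := by
    have h := Tot_pderiv k (X k : Py O)
    rwa [pderiv_X_self, ev_X_self, ev_X_self, bv_true, bv_false, sub_zero] at h
  have h2 := Tot_mul hg 1
  rwa [mul_one, h1, mul_one] at h2

theorem pderiv_Tot_ne {j k : Fin 4} (h : j ≠ k) (f : Py O) :
    pderiv j (Tot k f) = Tot k (pderiv j f) := by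
  rw [Tot_apply, pderiv_ev_ne h, pderiv_In_ne h, Tot_apply]

theorem ev_Tot_ne {j k : Fin 4} (h : j ≠ k) (δ : Bool) (f : Py O) :
    ev j δ (Tot k f) = Tot k (ev j δ f) := by
  rw [Tot_apply, ev_comm h, ev_In_ne h, Tot_apply]

theorem In_Tot_ne {j k : Fin 4} (h : j ≠ k) (δ : Bool) (f : Py O) :
    In j δ (Tot k f) = Tot k (In j δ f) := by
  rw [Tot_apply, ← ev_In_ne h.symm, In_comm h, Tot_apply]

theorem Tot_comm (j k : Fin 4) (f : Py O) : Tot j (Tot k f) = Tot k (Tot j f) := by
  by_cases h : j = k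
  · rw [h]
  · rw [Tot_apply j, In_Tot_ne h, ev_Tot_ne h, Tot_apply j]

theorem In_true (k : Fin 4) (f : Py O) : In k true f = In k false f - Tot k f :=
  eq_of_pderiv (k := k) (ε := true) (by rw [pderiv_In, map_sub, pderiv_In, pderiv_Tot, sub_zero])
    (by rw [ev_In, map_sub, ev_Tot, Tot_apply, sub_self])

theorem cm_Tot (f : O →+ O') (k : Fin 4) (p : Py O) : cm f (Tot k p) = Tot k (cm f p) := by
  rw [Tot_apply, cm_ev, cm_In, Tot_apply]

/-- the integral over the unit cube -/
def II : Py O →ₗ[O] O := lcoeff O 0 ∘ₗ Tot 0 ∘ₗ Tot 1 ∘ₗ Tot 2 ∘ₗ Tot 3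

theorem II_apply (f : Py O) : II f = coeff 0 (Tot 0 (Tot 1 (Tot 2 (Tot 3 f)))) := rfl

theorem Tot_Tot (k : Fin 4) (f : Py O) : Tot k (Tot k f) = Tot k f :=
  Tot_of_pderiv (pderiv_Tot k f)

theorem II_Tot (k : Fin 4) (f : Py O) : II (Tot k f) = II f := by
  rw [II_apply, II_apply]
  fin_cases k
  · change coeff 0 (Tot 0 (Tot 1 (Tot 2 (Tot 3 (Tot 0 f))))) = _
    rw [Tot_comm 3 0, Tot_comm 2 0, Tot_comm 1 0, Tot_Tot]
  · change coeff 0 (Tot 0 (Tot 1 (Tot 2 (Tot 3 (Tot 1 f))))) = _
    rw [Tot_comm 3 1, Tot_comm 2 1, Tot_Tot]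
  · change coeff 0 (Tot 0 (Tot 1 (Tot 2 (Tot 3 (Tot 2 f))))) = _
    rw [Tot_comm 3 2, Tot_Tot]
  · change coeff 0 (Tot 0 (Tot 1 (Tot 2 (Tot 3 (Tot 3 f))))) = _
    rw [Tot_Tot]

/-- the fundamental theorem of calculus -/
theorem II_pderiv (k : Fin 4) (f : Py O) :
    II (pderiv k f) = II (ev k true f) - II (ev k false f) := by
  rw [← II_Tot k, Tot_pderiv, map_sub]

theorem II_C (a : O) : II (C a : Py O) = a := by
  rw [II_apply, Tot_of_pderiv (k := 3) pderiv_C, Tot_of_pderiv (k := 2) pderiv_C,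
    Tot_of_pderiv (k := 1) pderiv_C, Tot_of_pderiv (k := 0) pderiv_C, coeff_zero_C]

theorem II_C_mul (a : O) (f : Py O) : II (C a * f) = a * II f := by
  rw [← smul_eq_C_mul, map_smul, smul_eq_mul]

theorem II_cm (f : O →+ O') (p : Py O) : II (cm f p) = f (II p) := by
  rw [II_apply, II_apply, ← cm_Tot, ← cm_Tot, ← cm_Tot, ← cm_Tot, coeff_cm]

theorem II_map (χ : O →+* O') (p : Py O) : II (map χ p) = χ (II p) := by
  rw [map_eq_cm, II_cm]
  rfl

theorem II_mem {b : Ideal O} {p : Py O} (hp : p ∈ Cf b) : II p ∈ b := lin_mem' _ hp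

/-- averaging over the end point of the integration -/
theorem II_In (k : Fin 4) (ε : Bool) (f : Py O) :
    II (In k ε f) = II ((bv O (!ε) - X k) * f) := by
  have h := II_pderiv k ((X k - bv O (!ε)) * In k ε f)
  rw [pderiv_mul, map_sub, pderiv_X_self, pderiv_bv, sub_zero, one_mul, pderiv_In, map_add,
    map_mul (ev k true), map_mul (ev k false)] at h
  have h2 : II (ev k true (X k - bv O (!ε)) * ev k true (In k ε f)) = 0 := by
    cases ε
    · simp
    · rw [ev_In, mul_zero, map_zero]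
  have h3 : II (ev k false (X k - bv O (!ε)) * ev k false (In k ε f)) = 0 := by
    cases ε
    · rw [ev_In, mul_zero, map_zero]
    · simp
  rw [h2, h3, sub_zero] at h
  rw [eq_neg_of_add_eq_zero_left h, ← map_neg, ← neg_mul, neg_sub]

/-- a polynomial without variables is constant -/
theorem eq_C_of_pderiv {f : Py O} (h : ∀ k, pderiv k f = 0) : f = C (II f) := by
  have h1 : II f = coeff 0 f := by
    rw [II_apply, Tot_of_pderiv (h 3), Tot_of_pderiv (h 2), Tot_of_pderiv (h 1),
      Tot_of_pderiv (h 0)]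
  have h2 : ∀ g : Py O, ev 0 false (ev 1 false (ev 2 false (ev 3 false g))) = C (coeff 0 g) := by
    intro g
    have h3 : (ev 0 false).comp ((ev 1 false).comp ((ev 2 false).comp (ev 3 false))) =
        (aeval fun _ => 0 : Py O →ₐ[O] Py O) := by
      refine algHom_ext fun j => ?_
      fin_cases j <;> simp [ev]
    have h4 := congrArg (fun T : Py O →ₐ[O] Py O => T g) h3
    refine h4.trans ?_
    change aeval (0 : Fin 4 → Py O) g = _
    rw [aeval_zero, algebraMap_eq]
    rfl
  rw [h1, ← h2, ev_of_pderiv (h 3), ev_of_pderiv (h 2), ev_of_pderiv (h 1), ev_of_pderiv (h 0)]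

theorem II_monomial (m : Fin 4 →₀ ℕ) (a : O) :
    II (monomial m a : Py O) = (∏ k, ((m k : ℚ) + 1)⁻¹) • a := by
  have h : ∀ (k : Fin 4) (m : Fin 4 →₀ ℕ) (a : O), Tot k (monomial m a : Py O) =
      monomial (m.erase k) (((m k : ℚ) + 1)⁻¹ • a) := by
    intro k m a
    change ev k true (In0 k (monomial m a) - ev k false (In0 k (monomial m a))) = _
    rw [In0_monomial, map_sub, ev_ev_self, ev_monomial, ev_monomial]
    simp [erase_add]
  rw [II_apply, h, h, h, h, Fin.prod_univ_four]
  have h2 : (((m.erase 3).erase 2).erase 1).erase 0 = 0 := by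
    ext j
    fin_cases j <;> simp
  rw [h2, coeff_monomial, if_pos rfl]
  simp [smul_smul, mul_assoc]

/-! ### permutations of the coordinates -/

theorem II_rename (σ : Equiv.Perm (Fin 4)) (f : Py O) : II (rename σ f) = II f := by
  induction f using MvPolynomial.induction_on' with
  | add p q hp hq => simp only [map_add, hp, hq]
  | monomial m a =>
    rw [rename_monomial, II_monomial, II_monomial, ← Equiv.prod_comp σ]
    simp only [mapDomain_apply σ.injective]

omit [Algebra ℚ O] in
theorem ev_rename (σ : Equiv.Perm (Fin 4)) (k : Fin 4) (ε : Bool) (f : Py O) :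
    ev (σ k) ε (rename σ f) = rename σ (ev k ε f) := by
  have h : (ev (σ k) ε).comp (rename σ) = (rename σ : Py O →ₐ[O] Py O).comp (ev k ε) := by
    refine algHom_ext fun j => ?_
    by_cases h : j = k
    · subst h
      cases ε <;> simp
    · simp [ev_X_ne h, ev_X_ne (σ.injective.ne h)]
  exact congrArg (fun T : Py O →ₐ[O] Py O => T f) h

end Vale.Agent.P215Z.Fm
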